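import Vale.Agent.P281.H969.TL.Spec

/-!
# P281, project T-G (helper969): descent by generically finite squares, statements (FROZEN)

`u : X₁ → X`, `v : Y₁ → Y` onto, equidimensional, `f ∘ u = v ∘ f₁`, and
`K_(X₁) + Δ₁ ≤ u^*(K_X + Δ)` over `Y ∖ S₀`. The relative forms of `f₁` give relative forms of `f`: the
traces of their powers (power sums). So every theorem on `(f₁, Δ₁)` proved with `HasFormsT` holds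
for `(f, Δ)`: ramified coverings of the fibres (branched along `Δ`), base changes (monodromy).
-/

open Set Filter Metric MeasureTheory Vale.Agent.P281 Vale.Agent.P281.H713 Vale.Agent.P272.K
open Vale.Agent.P281.MF Vale.Agent.P281.ISO Vale.Agent.P281.H713.TZ
open Vale.Agent.P281.H64.Thin (IsThinSet)
open Vale.Agent.P281.H64.Gen (IsSmallSet NoExc)
open Vale.Agent.P281.H64.TU (Tame KTame TameOK RelFormT HasFormsT)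

open scoped Topology ContDiff Manifold ComplexConjugate ComplexOrder ENNReal NNReal

noncomputable section

namespace Vale.Agent.P281.H969.TG

/-! ### Squares -/

section
variable {n p : ℕ} {X₁ Y₁ X Y : Type} [TopologicalSpace X₁] [ChartedSpace (Cm n) X₁]
  [TopologicalSpace Y₁] [ChartedSpace (Cm p) Y₁] [TopologicalSpace X] [ChartedSpace (Cm n) X]
  [TopologicalSpace Y] [ChartedSpace (Cm p) Y]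

/-- `K_(X₁) + Δ₁ ≤ u^*(K_X + Δ)` near `x₁`: `∏ |e_D ∘ u|^(Δ D) ≤ C |det du| ∏ |e_(D₁)|^(Δ₁ D₁)`. -/
def LogLe (n : ℕ) {X₁ X : Type} [TopologicalSpace X₁] [ChartedSpace (Cm n) X₁]
    [TopologicalSpace X] [ChartedSpace (Cm n) X] (u : X₁ → X) (Δ₁ : Set X₁ → ℝ) (Δ : Set X → ℝ)
    (x₁ : X₁) : Prop :=
  ∀ (T₁ : Finset (Set X₁)) (T : Finset (Set X)) (e₁ : Set X₁ → X₁ → ℂ) (e : Set X → X → ℂ),
    (∀ D, D ∈ T₁ ↔ Δ₁ D ≠ 0) → (∀ D, D ∈ T ↔ Δ D ≠ 0) →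
    (∀ D ∈ T₁, J.IsLocalEq (Cm n) D (e₁ D) x₁) → (∀ D ∈ T, J.IsLocalEq (Cm n) D (e D) (u x₁)) →
    ∃ C : ℝ, ∀ᶠ z in 𝓝 x₁, ∏ D ∈ T, ‖e D (u z)‖ ^ Δ D ≤
      C * ‖(fderiv ℂ (chartAt (Cm n) (u x₁) ∘ u ∘ (chartAt (Cm n) x₁).symm)
        (chartAt (Cm n) x₁ z)).det‖ * ∏ D ∈ T₁, ‖e₁ D z‖ ^ Δ₁ D

/-- A generically finite square, with `K_(X₁) + Δ₁ ≤ u^*(K_X + Δ)` over `Y ∖ S₀`. -/
structure IsSq (f₁ : X₁ → Y₁) (Δ₁ : Set X₁ → ℝ) (f : X → Y) (Δ : Set X → ℝ) (u : X₁ → X)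
    (v : Y₁ → Y) (S₀ : Set Y) : Prop where
  holu : ContMDiff 𝓘(ℂ, Cm n) 𝓘(ℂ, Cm n) ω u
  holv : ContMDiff 𝓘(ℂ, Cm p) 𝓘(ℂ, Cm p) ω v
  comm : ∀ x₁, f (u x₁) = v (f₁ x₁)
  surj : Function.Surjective u
  small : IsSmallSet (Cm p) S₀
  etale : ∀ y₁, v y₁ ∉ S₀ → Function.Injective (mfderiv 𝓘(ℂ, Cm p) 𝓘(ℂ, Cm p) v y₁)
  le : ∀ x₁, v (f₁ x₁) ∉ S₀ → LogLe n u Δ₁ Δ x₁

end

/-- The lifts of the slice `Q` to `X₁` are tame. -/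
def UTame {n d : ℕ} {X₁ X : Type} [TopologicalSpace X₁] [ChartedSpace (Cm n) X₁] (u : X₁ → X)
    (w₁ : Chart n X₁ → Cm n → Matrix (Fin n) (Fin n) ℂ) : Tame (Cm d) X := fun K Q v₀ r =>
  ∀ Q₁ : Cm d → X₁, (∀ v ∈ ball v₀ r,
    ContMDiffAt 𝓘(ℂ, Cm d) 𝓘(ℂ, Cm n) ω Q₁ v ∧ u (Q₁ v) = Q v) → KTame w₁ K Q₁ v₀ r

/-- **G1** (as `H383/U/Tame.lean` with `P ∘ d(φ ∘ u)` in place of `P`; `u⁻¹(y)` is compact; for `y` not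
in `u(X₁)` nothing to prove). -/
def TameUStmt : Prop :=
  ∀ (n d : ℕ) (X₁ X : Type) [TopologicalSpace X₁] [CompactSpace X₁] [ChartedSpace (Cm n) X₁]
    [IsManifold 𝓘(ℂ, Cm n) ω X₁] [TopologicalSpace X] [T2Space X] [ChartedSpace (Cm n) X]
    [IsManifold 𝓘(ℂ, Cm n) ω X] (u : X₁ → X)
    (w₁ : Chart n X₁ → Cm n → Matrix (Fin n) (Fin n) ℂ),
    ContMDiff 𝓘(ℂ, Cm n) 𝓘(ℂ, Cm n) ω u → IsHermitian w₁ →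
    TameOK (n := n) (UTame (d := d) u w₁)

/-- **G2**: the image of a small set by `v`, étale off `v⁻¹(S₀)`. -/
def VSmallStmt : Prop :=
  ∀ (p : ℕ) (Y₁ Y : Type) [TopologicalSpace Y₁] [T2Space Y₁] [CompactSpace Y₁]
    [ChartedSpace (Cm p) Y₁] [IsManifold 𝓘(ℂ, Cm p) ω Y₁] [TopologicalSpace Y] [T2Space Y]
    [ChartedSpace (Cm p) Y] [IsManifold 𝓘(ℂ, Cm p) ω Y] (v : Y₁ → Y) (S₀ : Set Y) (S₁ : Set Y₁),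
    ContMDiff 𝓘(ℂ, Cm p) 𝓘(ℂ, Cm p) ω v → IsSmallSet (Cm p) S₀ →
    (∀ y₁, v y₁ ∉ S₀ → Function.Injective (mfderiv 𝓘(ℂ, Cm p) 𝓘(ℂ, Cm p) v y₁)) →
    IsSmallSet (Cm p) S₁ → IsSmallSet (Cm p) (S₀ ∪ v '' S₁)

/-- **G3**: the local sheets of `u` over a point over which `u` is étale. -/
def SheetStmt : Prop :=
  ∀ (n : ℕ) (X₁ X : Type) [TopologicalSpace X₁] [T2Space X₁] [CompactSpace X₁]
    [ChartedSpace (Cm n) X₁] [IsManifold 𝓘(ℂ, Cm n) ω X₁] [TopologicalSpace X] [T2Space X]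
    [ChartedSpace (Cm n) X] [IsManifold 𝓘(ℂ, Cm n) ω X] (u : X₁ → X),
    ContMDiff 𝓘(ℂ, Cm n) 𝓘(ℂ, Cm n) ω u → ∀ x : X,
    (∀ x₁, u x₁ = x → Function.Injective (mfderiv 𝓘(ℂ, Cm n) 𝓘(ℂ, Cm n) u x₁)) →
    ∃ (m : ℕ) (s : Fin m → X → X₁) (V : Set X), IsOpen V ∧ x ∈ V ∧
      (∀ j, ∀ z ∈ V, ContMDiffAt 𝓘(ℂ, Cm n) 𝓘(ℂ, Cm n) ω (s j) z ∧ u (s j z) = z) ∧
      (∀ z ∈ V, Function.Injective fun j => s j z) ∧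
      ∀ z ∈ V, ∀ x₁, u x₁ = z → (∃ j, s j z = x₁) ∧
        Function.Injective (mfderiv 𝓘(ℂ, Cm n) 𝓘(ℂ, Cm n) u x₁)

/-- **G4** (from G3; the complement of a small set is connected, `f⁻¹(S)` is small): the number of
sheets. -/
def CardStmt : Prop :=
  ∀ (n p : ℕ) (X₁ X Y : Type) [TopologicalSpace X₁] [T2Space X₁] [CompactSpace X₁]
    [ChartedSpace (Cm n) X₁] [IsManifold 𝓘(ℂ, Cm n) ω X₁] [TopologicalSpace X] [T2Space X]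
    [CompactSpace X] [ConnectedSpace X]
    [ChartedSpace (Cm n) X] [IsManifold 𝓘(ℂ, Cm n) ω X] [TopologicalSpace Y] [T2Space Y]
    [ChartedSpace (Cm p) Y] [IsManifold 𝓘(ℂ, Cm p) ω Y] (u : X₁ → X) (f : X → Y) (S : Set Y)
    (Δ : Set X → ℝ), ContMDiff 𝓘(ℂ, Cm n) 𝓘(ℂ, Cm n) ω u → ContMDiff 𝓘(ℂ, Cm n) 𝓘(ℂ, Cm p) ω f →
    Function.Surjective f → IsSmallSet (Cm p) S →
    (∀ x, f x ∉ S → Function.Surjective (mfderiv 𝓘(ℂ, Cm n) 𝓘(ℂ, Cm p) f x)) →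
    J.IsSNC (Cm n) Δ → (∀ x₁, f (u x₁) ∉ S → (∀ D, Δ D ≠ 0 → u x₁ ∉ D) →
      Function.Injective (mfderiv 𝓘(ℂ, Cm n) 𝓘(ℂ, Cm n) u x₁)) →
    ∃ m : ℕ, ∀ x, f x ∉ S → (∀ D, Δ D ≠ 0 → x ∉ D) → (u ⁻¹' {x}).encard ≤ m

/-- **G5** (from G3): the lifts of the slices over which `u` is étale. -/
def LiftQStmt : Prop :=
  ∀ (n d : ℕ) (X₁ X : Type) [TopologicalSpace X₁] [T2Space X₁] [CompactSpace X₁]
    [ChartedSpace (Cm n) X₁] [IsManifold 𝓘(ℂ, Cm n) ω X₁] [TopologicalSpace X] [T2Space X]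
    [ChartedSpace (Cm n) X] [IsManifold 𝓘(ℂ, Cm n) ω X] (u : X₁ → X),
    ContMDiff 𝓘(ℂ, Cm n) 𝓘(ℂ, Cm n) ω u → ∀ (Q : Cm d → X) (v₀ : Cm d) (r : ℝ), 0 < r →
    (∀ v ∈ ball v₀ r, ContMDiffAt 𝓘(ℂ, Cm d) 𝓘(ℂ, Cm n) ω Q v ∧ ∀ x₁, u x₁ = Q v →
      Function.Injective (mfderiv 𝓘(ℂ, Cm n) 𝓘(ℂ, Cm n) u x₁)) → ∀ x₁, u x₁ = Q v₀ →
    ∃ Q₁ : Cm d → X₁, Q₁ v₀ = x₁ ∧ ∀ v ∈ ball v₀ r,
      ContMDiffAt 𝓘(ℂ, Cm d) 𝓘(ℂ, Cm n) ω Q₁ v ∧ u (Q₁ v) = Q v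

/-! ### Forms -/

section
variable {E E' : Type} [NormedAddCommGroup E] [NormedSpace ℂ E] [NormedAddCommGroup E']
  [NormedSpace ℂ E'] {X₁ Y₁ X Y : Type} [TopologicalSpace X₁] [ChartedSpace E X₁]
  [TopologicalSpace Y₁] [ChartedSpace E' Y₁] [TopologicalSpace X] [ChartedSpace E X]
  [TopologicalSpace Y] [ChartedSpace E' Y]

/-- The relative `N`-form `Θ₁` of `f₁` at `x₁`, as a relative form of `f` at `u x₁`. -/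
def trn (E E' : Type) [NormedAddCommGroup E] [NormedSpace ℂ E] [NormedAddCommGroup E']
    [NormedSpace ℂ E'] {X₁ Y₁ X Y : Type} [TopologicalSpace X₁] [ChartedSpace E X₁]
    [TopologicalSpace Y₁] [ChartedSpace E' Y₁] [TopologicalSpace X] [ChartedSpace E X]
    [TopologicalSpace Y] [ChartedSpace E' Y] (u : X₁ → X) (v : Y₁ → Y) (f₁ : X₁ → Y₁) (N : ℕ)
    (Θ₁ : X₁ → ℂ) (x₁ : X₁) : ℂ :=
  Θ₁ x₁ * ((dM E' E' v (f₁ x₁)).det / (dM E E u x₁).det) ^ N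

/-- The trace of the power `k`. -/
def tr (E E' : Type) [NormedAddCommGroup E] [NormedSpace ℂ E] [NormedAddCommGroup E']
    [NormedSpace ℂ E'] {X₁ Y₁ X Y : Type} [TopologicalSpace X₁] [ChartedSpace E X₁]
    [TopologicalSpace Y₁] [ChartedSpace E' Y₁] [TopologicalSpace X] [ChartedSpace E X]
    [TopologicalSpace Y] [ChartedSpace E' Y] (u : X₁ → X) (v : Y₁ → Y) (f₁ : X₁ → Y₁) (N k : ℕ)
    (Θ₁ : X₁ → ℂ) (x : X) : ℂ :=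
  ∑ᶠ x₁ ∈ u ⁻¹' {x}, trn E E' u v f₁ N Θ₁ x₁ ^ k

end

/-- **G6**: the traces are relative forms. (`hol`: near `x`, `u⁻¹(x)` is compact, and by `LogLe` the
function `jac^(kN) tr ∏ e^κ / jac^(kN)` is bounded, and holomorphic off the support of `Δ`, by G3;
Riemann's extension theorem `H349/Gen/Opn: ext_open`. `bound`: by G5 every point over `Q v₀` is
`Q₁ v₀` for a lift `Q₁`, and `det dv JP e₀ (dM f₁) (P ∘ du) = det du JP e₀ (dM f) P`.) -/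
def TraceStmt : Prop :=
  ∀ (p d N k m : ℕ) (X₁ Y₁ X Y : Type) [TopologicalSpace X₁] [T2Space X₁] [CompactSpace X₁]
    [ChartedSpace (Cm (p + d)) X₁] [IsManifold 𝓘(ℂ, Cm (p + d)) ω X₁] [TopologicalSpace Y₁]
    [T2Space Y₁] [ChartedSpace (Cm p) Y₁] [IsManifold 𝓘(ℂ, Cm p) ω Y₁] [TopologicalSpace X]
    [T2Space X] [CompactSpace X]
    [ChartedSpace (Cm (p + d)) X] [IsManifold 𝓘(ℂ, Cm (p + d)) ω X] [TopologicalSpace Y]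
    [T2Space Y] [ChartedSpace (Cm p) Y] [IsManifold 𝓘(ℂ, Cm p) ω Y] (f₁ : X₁ → Y₁)
    (Δ₁ : Set X₁ → ℝ) (f : X → Y) (Δ : Set X → ℝ) (u : X₁ → X) (v : Y₁ → Y) (S₀ S : Set Y)
    (S₁ : Set Y₁) (w₁ : Chart (p + d) X₁ → Cm (p + d) → Matrix (Fin (p + d)) (Fin (p + d)) ℂ)
    (e₀ : Cm (p + d) ≃L[ℂ] (Cm p × Cm d)) (𝒜₁ : Set (Set X₁)) (κ₁ : Set X₁ → ℕ) (Θ₁ : X₁ → ℂ)
    (κ : Set X → ℕ), 0 < d → 0 < k → IsSq (n := p + d) (p := p) f₁ Δ₁ f Δ u v S₀ →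
    ContMDiff 𝓘(ℂ, Cm (p + d)) 𝓘(ℂ, Cm p) ω f₁ → ContMDiff 𝓘(ℂ, Cm (p + d)) 𝓘(ℂ, Cm p) ω f →
    J.IsSNC (Cm (p + d)) Δ₁ → J.IsSNC (Cm (p + d)) Δ → IsClosed S → S₀ ⊆ S →
    (∀ y₁, v y₁ ∉ S → y₁ ∉ S₁) →
    (∀ x, f x ∉ S → Function.Surjective (mfderiv 𝓘(ℂ, Cm (p + d)) 𝓘(ℂ, Cm p) f x)) →
    (∀ x, f x ∉ S → (∀ D, Δ D ≠ 0 → x ∉ D) → (u ⁻¹' {x}).encard ≤ m) →
    RelFormT (KTame w₁) f₁ S₁ e₀ N 𝒜₁ κ₁ Θ₁ → (∀ D ∈ 𝒜₁, Δ₁ D ≠ 0) →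
    (∀ D, (κ₁ D : ℝ) ≤ N * Δ₁ D) → (∀ D, (κ D : ℝ) = k * (N * Δ D)) →
    RelFormT (UTame u w₁) f S e₀ (k * N) {D | Δ D ≠ 0} κ
      (tr (Cm (p + d)) (Cm p) u v f₁ N k Θ₁)

/-- **G7**: the rank of the power sums. (With `T_k = ∑ a_j^k`: at a general point, if `d (T_k^(M!/k) /
T_k₀^(M!/k₀)) ξ = 0` for all `k`, then `d T_k ξ = k μ T_k`, so `∑ a_j^(k - 1) (d a_j ξ - μ a_j) = 0`
for `k = 1, …, M`, and by interpolation at the values `a_j`, `d a_j ξ = μ a_j`.) -/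
def PowStmt : Prop :=
  ∀ (d r M : ℕ) (a : Fin M → Cm d → ℂ) (i : Fin (r + 1) → Fin M) (v₀ : Cm d),
    (∀ j, AnalyticAt ℂ (a j) v₀) → a (i 0) v₀ ≠ 0 →
    (Function.Surjective fun (ξ : Cm d) (b : Fin r) =>
      fderiv ℂ (fun v => a (i b.succ) v / a (i 0) v) v₀ ξ) →
    ∃ᶠ v in 𝓝 v₀, ∃ (k₀ : ℕ) (k : Fin r → ℕ), 0 < k₀ ∧ k₀ ≤ M ∧ (∀ b, 0 < k b ∧ k b ≤ M) ∧
      ∑ j, a j v ^ k₀ ≠ 0 ∧ Function.Surjective fun (ξ : Cm d) (b : Fin r) =>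
        fderiv ℂ (fun v => (∑ j, a j v ^ k b) ^ (M.factorial / k b) /
          (∑ j, a j v ^ k₀) ^ (M.factorial / k₀)) v ξ

/-- `HasFormsT`, with `𝒜` in the support of `Δ`. -/
def HasFormsD {E E' E₀ : Type} [NormedAddCommGroup E] [NormedSpace ℂ E] [FiniteDimensional ℂ E]
    [NormedAddCommGroup E'] [NormedSpace ℂ E'] [FiniteDimensional ℂ E']
    [NormedAddCommGroup E₀] [NormedSpace ℂ E₀] [FiniteDimensional ℂ E₀]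
    {X Y : Type} [TopologicalSpace X] [ChartedSpace E X] [IsManifold 𝓘(ℂ, E) ω X]
    [TopologicalSpace Y] [ChartedSpace E' Y] [IsManifold 𝓘(ℂ, E') ω Y] (T : Tame E₀ X)
    (f : X → Y) (S : Set Y) (e₀ : E ≃L[ℂ] (E' × E₀)) (Δ : Set X → ℝ) (r : ℕ) (y : Y) : Prop :=
  ∃ (N : ℕ) (𝒜 : Set (Set X)) (κ₀ : Set X → ℕ) (Θ : X → ℂ)
      (Ξ : Fin r → X → ℂ), 0 < N ∧ (∀ D ∈ 𝒜, Δ D ≠ 0) ∧
      RelFormT T f S e₀ N 𝒜 κ₀ Θ ∧ (∀ b, RelFormT T f S e₀ N 𝒜 κ₀ (Ξ b)) ∧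
      (∀ D, (κ₀ D : ℝ) ≤ N * Δ D) ∧ ∃ x, f x = y ∧ (∀ᶠ z in 𝓝 x, Θ z ≠ 0) ∧
      (∀ b, HolV E (fun z => Ξ b z / Θ z) x) ∧
      ∀ c : Fin r → ℂ, (∀ ξ, dM E E' f x ξ = 0 →
        ∑ b, c b * dif E (fun z => Ξ b z / Θ z) x ξ = 0) → ∀ b, c b = 0

/-- **G8** (from G1, …, G7): the forms of `f`. -/
def DescStmt : Prop :=
  ∀ (p d r m : ℕ) (X₁ Y₁ X Y : Type) [TopologicalSpace X₁] [T2Space X₁] [CompactSpace X₁]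
    [ChartedSpace (Cm (p + d)) X₁] [IsManifold 𝓘(ℂ, Cm (p + d)) ω X₁] [TopologicalSpace Y₁]
    [T2Space Y₁] [ChartedSpace (Cm p) Y₁] [IsManifold 𝓘(ℂ, Cm p) ω Y₁] [TopologicalSpace X]
    [T2Space X] [CompactSpace X]
    [ChartedSpace (Cm (p + d)) X] [IsManifold 𝓘(ℂ, Cm (p + d)) ω X] [TopologicalSpace Y]
    [T2Space Y] [ChartedSpace (Cm p) Y] [IsManifold 𝓘(ℂ, Cm p) ω Y] (f₁ : X₁ → Y₁)
    (Δ₁ : Set X₁ → ℝ) (f : X → Y) (Δ : Set X → ℝ) (u : X₁ → X) (v : Y₁ → Y) (S₀ S : Set Y)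
    (S₁ : Set Y₁) (w₁ : Chart (p + d) X₁ → Cm (p + d) → Matrix (Fin (p + d)) (Fin (p + d)) ℂ)
    (e₀ : Cm (p + d) ≃L[ℂ] (Cm p × Cm d)), 0 < d →
    IsSq (n := p + d) (p := p) f₁ Δ₁ f Δ u v S₀ →
    ContMDiff 𝓘(ℂ, Cm (p + d)) 𝓘(ℂ, Cm p) ω f₁ → ContMDiff 𝓘(ℂ, Cm (p + d)) 𝓘(ℂ, Cm p) ω f →
    Function.Surjective f → J.IsSNC (Cm (p + d)) Δ₁ → J.IsSNC (Cm (p + d)) Δ → IsClosed S₁ →
    IsClosed S → S₀ ⊆ S → (∀ y₁, v y₁ ∉ S → y₁ ∉ S₁) →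
    (∀ x, f₁ x ∉ S₁ → Function.Surjective (mfderiv 𝓘(ℂ, Cm (p + d)) 𝓘(ℂ, Cm p) f₁ x)) →
    (∀ x, f x ∉ S → Function.Surjective (mfderiv 𝓘(ℂ, Cm (p + d)) 𝓘(ℂ, Cm p) f x)) →
    (∀ y ∉ S, ∀ D, Δ D ≠ 0 → ¬ f ⁻¹' {y} ⊆ D) → (∀ y ∉ S, IsPreconnected (f ⁻¹' {y})) →
    (∀ x, f x ∉ S → (∀ D, Δ D ≠ 0 → x ∉ D) → (u ⁻¹' {x}).encard ≤ m) →
    (∀ y₁ ∉ S₁, HasFormsD (KTame w₁) f₁ S₁ e₀ Δ₁ r y₁) →
    ∀ y ∉ S, HasFormsT (UTame u w₁) f S e₀ Δ r y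

/-! ### The goal -/

/-- `f₁` has the relative forms. -/
def HasFam (p d r : ℕ) {X₁ Y₁ : Type} [TopologicalSpace X₁] [ChartedSpace (Cm (p + d)) X₁]
    [IsManifold 𝓘(ℂ, Cm (p + d)) ω X₁] [TopologicalSpace Y₁] [ChartedSpace (Cm p) Y₁]
    [IsManifold 𝓘(ℂ, Cm p) ω Y₁] (f₁ : X₁ → Y₁) (Δ₁ : Set X₁ → ℝ) : Prop :=
  ∃ (w₁ : Chart (p + d) X₁ → Cm (p + d) → Matrix (Fin (p + d)) (Fin (p + d)) ℂ) (S₁ : Set Y₁),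
    IsHermitian w₁ ∧ IsSmallSet (Cm p) S₁ ∧
    H64.IsProperFibration (n := p + d) (p := p) f₁ S₁ ∧
    ∀ e₀ : Cm (p + d) ≃L[ℂ] (Cm p × Cm d), ∀ y₁ ∉ S₁, HasFormsD (KTame w₁) f₁ S₁ e₀ Δ₁ r y₁

/-- **T-G**, the goal. -/
def TGStmt : Prop :=
  ∀ (p d r : ℕ) (X₁ Y₁ X Y : Type) [TopologicalSpace X₁] [ChartedSpace (Cm (p + d)) X₁]
    [IsManifold 𝓘(ℂ, Cm (p + d)) ω X₁] [TopologicalSpace Y₁] [ChartedSpace (Cm p) Y₁]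
    [IsManifold 𝓘(ℂ, Cm p) ω Y₁] [TopologicalSpace X] [ChartedSpace (Cm (p + d)) X]
    [TopologicalSpace Y] [ChartedSpace (Cm p) Y] (f₁ : X₁ → Y₁) (Δ₁ : Set X₁ → ℝ) (f : X → Y)
    (Δ : Set X → ℝ) (u : X₁ → X) (v : Y₁ → Y) (S₀ : Set Y), 0 < d →
    H511.Surf.IsFibration (Cm (p + d)) (Cm p) f₁ Δ₁ →
    H511.Surf.IsFibration (Cm (p + d)) (Cm p) f Δ →
    IsSq (n := p + d) (p := p) f₁ Δ₁ f Δ u v S₀ → HasFam p d r f₁ Δ₁ →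
    ∃ H : ℕ → Set Y, (∀ k, IsThinSet (Cm p) (H k)) ∧ ∀ y, (∀ k, y ∉ H k) →
      ∀ (F : Type) [TopologicalSpace F] [ChartedSpace (Cm d) F] (i : F → X),
        H511.Surf.IsFibre (Cm (p + d)) (Cm d) f y i →
        ((r : ℕ∞) : WithBot ℕ∞) + TZ.S.kodF (p + d) p Δ (id : X → X) f ≤
            TZ.S.kodX (Cm (p + d)) Δ ∧
          (TZ.S.kodR (Cm (p + d)) (Cm d) i Δ ≤ ((r : ℕ∞) : WithBot ℕ∞) →
            TZ.S.kodR (Cm (p + d)) (Cm d) i Δ + TZ.S.kodF (p + d) p Δ (id : X → X) f ≤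
              TZ.S.kodX (Cm (p + d)) Δ ∧
            (NoExc (Cm (p + d)) (Cm p) f → H511.Surf.Q1 (Cm (p + d)) (Cm p) (Cm d) f Δ i))

end Vale.Agent.P281.H969.TG
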