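import Vale.Agent.P281.H969.TG.Loc
import Vale.Agent.P281.H349.TG.Sheet

/-!
# P281, project T-G (helper969), block G8: the forms of `f`
-/

open scoped Manifold ContDiff Topology
open Set Filter Metric Module

noncomputable section

namespace Vale.Agent.P281.H969.TG

open Vale.Agent.P281 Vale.Agent.P281.MF Vale.Agent.P281.ISO
open Vale.Agent.P281.H713 Vale.Agent.P281.H969.TL
open Vale.Agent.P281.H64.TU (Tame KTame TameOK RelFormT HasFormsT)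
open Vale.Agent.P272.K (Chart IsHermitian Cm)

set_option linter.unusedSectionVars false

theorem det_ne {n : ℕ} {A : Cm n →L[ℂ] Cm n} (hA : Function.Injective A) : A.det ≠ 0 := by
  intro h0
  have h1 : LinearMap.det (A : Cm n →ₗ[ℂ] Cm n) = 0 := h0
  have h2 := LinearMap.bot_lt_ker_of_det_eq_zero h1
  have h3 : LinearMap.ker (A : Cm n →ₗ[ℂ] Cm n) = ⊥ := LinearMap.ker_eq_bot.2 hA
  rw [h3] at h2
  exact lt_irrefl _ h2

theorem inj_of_det {n : ℕ} {A : Cm n →L[ℂ] Cm n} (hA : A.det ≠ 0) : Function.Injective A :=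
  (LinearMap.equivOfDetNeZero ((A : Cm n →L[ℂ] Cm n) : Cm n →ₗ[ℂ] Cm n) hA).injective

section RK

variable {E E' : Type} [NormedAddCommGroup E] [NormedSpace ℂ E] [FiniteDimensional ℂ E]
  [NormedAddCommGroup E'] [NormedSpace ℂ E'] [FiniteDimensional ℂ E']
variable {X Y : Type} [TopologicalSpace X] [ChartedSpace E X] [IsManifold 𝓘(ℂ, E) ω X]
  [TopologicalSpace Y] [ChartedSpace E' Y] [IsManifold 𝓘(ℂ, E') ω Y]

theorem rk_congr {f : X → Y} {r : ℕ} {Θ Θ' : Fin (r + 1) → X → ℂ} {x : X}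
    (h : RKAt E E' f Θ x) (h0 : ∀ᶠ z in 𝓝 x, Θ' 0 z ≠ 0)
    (he : ∀ s, ∀ᶠ z in 𝓝 x, Θ' s z / Θ' 0 z = Θ s z / Θ 0 z) : RKAt E E' f Θ' x := by
  obtain ⟨-, h2, h3⟩ := h
  refine ⟨h0, fun s => (h2 s).congr (he s), fun c hc => h3 c fun ξ hξ => ?_⟩
  rw [← hc ξ hξ]
  refine Finset.sum_congr rfl fun k _ => ?_
  have h4 : dif E (fun z => Θ k.succ z / Θ 0 z) x = dif E (fun z => Θ' k.succ z / Θ' 0 z) x := by
    have h5 : (fun z => Θ' k.succ z / Θ' 0 z) =ᶠ[𝓝 x] fun z => Θ k.succ z / Θ 0 z := he k.succ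
    exact h5.mfderiv_eq.symm
  rw [h4]

end RK

section Tr

variable {p d m : ℕ} {X₁ Y₁ X Y : Type} [TopologicalSpace X₁]
  [ChartedSpace (Cm (p + d)) X₁] [TopologicalSpace Y₁]
  [ChartedSpace (Cm p) Y₁] [TopologicalSpace X]
  [ChartedSpace (Cm (p + d)) X] [TopologicalSpace Y] [ChartedSpace (Cm p) Y]

/-- the trace as a finite sum -/
theorem tr_eq (u : X₁ → X) (v : Y₁ → Y) (f₁ : X₁ → Y₁) (N k : ℕ) (Θ₁ : X₁ → ℂ)
    {s : Fin m → X → X₁} {z : X} (h1 : ∀ j, u (s j z) = z)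
    (h2 : Function.Injective fun j => s j z) (h3 : ∀ x₁, u x₁ = z → ∃ j, s j z = x₁) :
    tr (Cm (p + d)) (Cm p) u v f₁ N k Θ₁ z =
      ∑ j, trn (Cm (p + d)) (Cm p) u v f₁ N Θ₁ (s j z) ^ k := by
  have h4 : u ⁻¹' {z} = range fun j => s j z := by
    ext x₁
    constructor
    · intro h
      obtain ⟨j, hj⟩ := h3 x₁ h
      exact ⟨j, hj⟩
    · rintro ⟨j, rfl⟩
      exact h1 j
  unfold tr
  rw [h4, finsum_mem_range h2, finsum_eq_sum_of_fintype]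

end Tr

section Main

variable {p d r m : ℕ} {X₁ Y₁ X Y : Type} [TopologicalSpace X₁] [T2Space X₁] [CompactSpace X₁]
  [ChartedSpace (Cm (p + d)) X₁] [IsManifold 𝓘(ℂ, Cm (p + d)) ω X₁] [TopologicalSpace Y₁]
  [T2Space Y₁] [ChartedSpace (Cm p) Y₁] [IsManifold 𝓘(ℂ, Cm p) ω Y₁] [TopologicalSpace X]
  [T2Space X] [CompactSpace X]
  [ChartedSpace (Cm (p + d)) X] [IsManifold 𝓘(ℂ, Cm (p + d)) ω X] [TopologicalSpace Y]
  [T2Space Y] [ChartedSpace (Cm p) Y] [IsManifold 𝓘(ℂ, Cm p) ω Y] {f₁ : X₁ → Y₁}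
  {Δ₁ : Set X₁ → ℝ} {f : X → Y} {Δ : Set X → ℝ} {u : X₁ → X} {v : Y₁ → Y} {S₀ S : Set Y}
  {S₁ : Set Y₁} {w₁ : Chart (p + d) X₁ → Cm (p + d) → Matrix (Fin (p + d)) (Fin (p + d)) ℂ}
  {e₀ : Cm (p + d) ≃L[ℂ] (Cm p × Cm d)}

/-- **G8** -/
theorem desc (hTr : TraceStmt) (hPow : PowStmt) (hd : 0 < d)
    (hsq : IsSq (n := p + d) (p := p) f₁ Δ₁ f Δ u v S₀)
    (hf₁c : ContMDiff 𝓘(ℂ, Cm (p + d)) 𝓘(ℂ, Cm p) ω f₁)
    (hfc : ContMDiff 𝓘(ℂ, Cm (p + d)) 𝓘(ℂ, Cm p) ω f)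
    (hfs : Function.Surjective f) (hΔ₁ : J.IsSNC (Cm (p + d)) Δ₁) (hΔ : J.IsSNC (Cm (p + d)) Δ)
    (hScl : IsClosed S) (hS₀ : S₀ ⊆ S) (hvS : ∀ y₁, v y₁ ∉ S → y₁ ∉ S₁)
    (hsub₁ : ∀ x, f₁ x ∉ S₁ →
      Function.Surjective (mfderiv 𝓘(ℂ, Cm (p + d)) 𝓘(ℂ, Cm p) f₁ x))
    (hsub : ∀ x, f x ∉ S → Function.Surjective (mfderiv 𝓘(ℂ, Cm (p + d)) 𝓘(ℂ, Cm p) f x))
    (hne : ∀ y ∉ S, ∀ D, Δ D ≠ 0 → ¬ f ⁻¹' {y} ⊆ D)
    (hc : ∀ y ∉ S, IsPreconnected (f ⁻¹' {y})) (hc₁ : ∀ y₁ ∉ S₁, IsPreconnected (f₁ ⁻¹' {y₁}))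
    (hm : ∀ x, f x ∉ S → (∀ D, Δ D ≠ 0 → x ∉ D) → (u ⁻¹' {x}).encard ≤ m)
    (hF : ∀ y₁ ∉ S₁, HasFormsD (KTame w₁) f₁ S₁ e₀ Δ₁ r y₁) :
    ∀ y ∉ S, HasFormsT (UTame u w₁) f S e₀ Δ r y := by
  classical
  intro y hy
  have hf : ∀ x, HolM (Cm (p + d)) (Cm p) f x := fun x => hfc.contMDiffAt
  have hf₁ : ∀ x, HolM (Cm (p + d)) (Cm p) f₁ x := fun x => hf₁c.contMDiffAt
  have hu : ∀ x, HolM (Cm (p + d)) (Cm (p + d)) u x := fun x => hsq.holu.contMDiffAt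
  have hv : ∀ y, HolM (Cm p) (Cm p) v y := fun y => hsq.holv.contMDiffAt
  have het : ∀ x₁, f (u x₁) ∉ S → (∀ D, Δ D ≠ 0 → u x₁ ∉ D) →
      (dM (Cm (p + d)) (Cm (p + d)) u x₁).det ≠ 0 := fun x₁ h1 h2 =>
    etale_of_le (hu x₁) hΔ₁ hΔ (hsq.le x₁ fun h3 => h1 (by rw [hsq.comm]; exact hS₀ h3)) h2
  -- a point over `y` off the support of `Δ`
  obtain ⟨x₀, hx₀⟩ := hfs y
  obtain ⟨xa, hxa1, hxa2⟩ : ∃ x, f x = y ∧ ∀ D ∈ hΔ.1.toFinset, x ∉ D :=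
    (dense_fib hf e₀ (fun x hx => hsub x (by rw [hx]; exact hy)) (hc y hy)
      (fun D hD => hΔ.2.1 D (by simpa using hD)) (fun D hD => hne y hy D (by simpa using hD))
      hx₀).exists
  obtain ⟨xb, rfl⟩ := hsq.surj xa
  set y₁ := f₁ xb with hy₁
  have hvy₁ : v y₁ = y := by rw [hy₁, ← hsq.comm, hxa1]
  have hy₁S : y₁ ∉ S₁ := hvS y₁ (by rw [hvy₁]; exact hy)
  obtain ⟨N, 𝒜₁, κ₁, Θ, Ξ, hN, h𝒜₁, hΘ, hΞ, hκ₁, x₁, hfx₁, hΘne, hΞh, hind⟩ := hF y₁ hy₁S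
  -- the denominators
  obtain ⟨M₀, hM₀, q₀, hq₀, -⟩ := exists_denominator (JB.snc hΔ)
  obtain ⟨M', rfl⟩ : ∃ M', M₀ = M' + 1 := ⟨M₀ - 1, by omega⟩
  set θz : Fin (r + 1) → X₁ → ℂ := Fin.cons Θ Ξ with hθz
  set θ : Fin (r + 1) → X₁ → ℂ := fun s x => θz s x * Θ x ^ M' with hθ
  have hR0 : ∀ s, RelFormT (KTame w₁) f₁ S₁ e₀ N 𝒜₁ κ₁ (θz s) := by
    intro s
    refine Fin.cases ?_ (fun k => ?_) s
    · rw [hθz, Fin.cons_zero]
      exact hΘ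
    · rw [hθz, Fin.cons_succ]
      exact hΞ k
  have hR : ∀ s, RelFormT (KTame w₁) f₁ S₁ e₀ ((M' + 1) * N) 𝒜₁ (fun D => (M' + 1) * κ₁ D)
      (θ s) := fun s => relCast (relMul (hR0 s) (relPow hΘ M')) (by ring) (by funext D; ring)
  set N' := (M' + 1) * N with hN'
  have hκ' : ∀ D, (((M' + 1) * κ₁ D : ℕ) : ℝ) ≤ (N' : ℕ) * Δ₁ D := by
    intro D
    rw [hN']
    push_cast
    have h1 := hκ₁ D
    have h2 : (0 : ℝ) ≤ (M' : ℝ) + 1 := by positivity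
    calc ((M' : ℝ) + 1) * (κ₁ D : ℝ) ≤ ((M' : ℝ) + 1) * (N * Δ₁ D) :=
          mul_le_mul_of_nonneg_left h1 h2
      _ = _ := by ring
  -- the rank
  have hθ00 : θz 0 = Θ := by rw [hθz, Fin.cons_zero]
  have hrk0 : RKAt (Cm (p + d)) (Cm p) f₁ θz x₁ := by
    refine ⟨by rw [hθ00]; exact hΘne, fun s => ?_, ?_⟩
    · refine Fin.cases ?_ (fun k => ?_) s
      · refine (HolV.const (1 : ℂ) x₁).congr ?_
        filter_upwards [hΘne] with z hz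
        rw [hθ00, div_self hz]
      · rw [hθ00, hθz, Fin.cons_succ]
        exact hΞh k
    · intro c hc0
      refine hind c fun ξ hξ => ?_
      rw [← hc0 ξ hξ]
      refine Finset.sum_congr rfl fun k _ => ?_
      rw [hθ00, hθz, Fin.cons_succ]
  have hrk1 : RKAt (Cm (p + d)) (Cm p) f₁ θ x₁ := by
    refine rk_congr hrk0 ?_ fun s => ?_
    · filter_upwards [hΘne] with z hz
      show θz 0 z * Θ z ^ M' ≠ 0
      rw [hθ00]
      exact mul_ne_zero hz (pow_ne_zero _ hz)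
    · filter_upwards [hΘne] with z hz
      show θz s z * Θ z ^ M' / (θz 0 z * Θ z ^ M') = _
      rw [mul_div_mul_right _ _ (pow_ne_zero _ hz)]
  have hrk2 := hrk1.near hf₁ (hsub₁ x₁ (by rw [hfx₁]; exact hy₁S))
  -- a good point over `y₁`
  set A : Set X₁ := {z | ∃ D ∈ hΔ.1.toFinset, u z ∈ D} with hA
  have hAeq : ∀ x, f₁ x = y₁ → ∃ g : X₁ → ℂ, HolV (Cm (p + d)) g x ∧
      ∀ᶠ z in 𝓝 x, z ∈ A ↔ g z = 0 := by
    intro x _
    have h1 : ∀ D, ∃ g, D ∈ hΔ.1.toFinset → J.IsLocalEq (Cm (p + d)) D g (u x) := by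
      intro D
      by_cases hD : D ∈ hΔ.1.toFinset
      · obtain ⟨g, hg⟩ := (hΔ.2.1 D (by simpa using hD)).2.1 (u x)
        exact ⟨g, fun _ => hg⟩
      · exact ⟨fun _ => 0, fun h' => absurd h' hD⟩
    choose g hg using h1
    refine ⟨fun z => ∏ D ∈ hΔ.1.toFinset, g D (u z), HolV.prod fun D hD => ?_, ?_⟩
    · obtain ⟨V, -, hxV, hgV, -⟩ := hg D hD
      exact HolV.comp (h := g D) (hgV _ hxV) (hu x)
    · have h2 : ∀ᶠ z in 𝓝 x, ∀ D ∈ hΔ.1.toFinset, (u z ∈ D ↔ g D (u z) = 0) := by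
        refine (Finset.eventually_all _).2 fun D hD => ?_
        obtain ⟨V, hV, hxV, -, hDV, -⟩ := hg D hD
        filter_upwards [(hu x).continuousAt.eventually (hV.mem_nhds hxV)] with z hz
        exact hDV _ hz
      filter_upwards [h2] with z h3
      rw [Finset.prod_eq_zero_iff]
      constructor
      · rintro ⟨D, hD, h4⟩
        exact ⟨D, hD, (h3 D hD).1 h4⟩
      · rintro ⟨D, hD, h4⟩
        exact ⟨D, hD, (h3 D hD).2 h4⟩
  have hAne : ¬ f₁ ⁻¹' {y₁} ⊆ A := by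
    intro h1
    obtain ⟨D, hD, h2⟩ := h1 (show xb ∈ f₁ ⁻¹' {y₁} from rfl)
    exact hxa2 D hD h2
  obtain ⟨xc, ⟨hxc1, hxc2⟩, hxc3⟩ := ((dense_an hf₁ e₀
    (fun x hx => hsub₁ x (by rw [hx]; exact hy₁S)) (hc₁ y₁ hy₁S) hAeq hAne hfx₁).and_eventually
    hrk2).exists
  set x := u xc with hx
  have hfx : f x = y := by rw [hx, hsq.comm, hxc1, hvy₁]
  have hfxS : f x ∉ S := by rw [hfx]; exact hy
  have hxΔ : ∀ D, Δ D ≠ 0 → x ∉ D := fun D hD h1 => hxc2 ⟨D, by simpa using hD, h1⟩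
  -- the sheets
  obtain ⟨m', s, V, hV, hxV, hs1, hs2, hs3⟩ := H349.TG.sheet (p + d) X₁ X u hsq.holu x fun z hz =>
    inj_of_det (het z (by rw [hz]; exact hfxS) (by rw [hz]; exact hxΔ))
  obtain ⟨j₀, hj₀⟩ := (hs3 x hxV xc rfl).1
  have hloc : ∀ j σ, ∃ h : X → ℂ, HolV (Cm (p + d)) h x ∧ ∀ᶠ z in 𝓝 x,
      trn (Cm (p + d)) (Cm p) u v f₁ N' (θ σ) (s j z) =
        h z * (jac (Cm (p + d)) (chartAt (Cm (p + d)) x) z /
          jac (Cm p) (chartAt (Cm p) (f x)) (f z)) ^ N' := by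
    intro j σ
    refine trn_local hsq hf₁ hΔ₁ hΔ (hR σ) h𝒜₁ hκ' (fun h1 => hfxS (hS₀ h1)) hxΔ (hs1 j x hxV).1
      ?_ ?_
    · filter_upwards [hV.mem_nhds hxV] with z hz using (hs1 j z hz).2
    · refine hvS _ ?_
      rw [← hsq.comm, (hs1 j x hxV).2]
      exact hfxS
  choose h hh hhe using hloc
  set ρ : X → ℂ := fun z => jac (Cm (p + d)) (chartAt (Cm (p + d)) x) z /
          jac (Cm p) (chartAt (Cm p) (f x)) (f z) with hρ
  have hρ0 : ∀ᶠ z in 𝓝 x, ρ z ≠ 0 := by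
    filter_upwards [(chartAt (Cm (p + d)) x).open_source.mem_nhds (mem_chart_source _ x),
      (hf x).continuousAt.eventually ((chartAt (Cm p) (f x)).open_source.mem_nhds
        (mem_chart_source _ (f x)))] with z h1 h2
    exact div_ne_zero (jac_chart_ne_zero h1) (jac_chart_ne_zero h2)
  -- the good neighbourhood of `x`
  have hG : ∀ᶠ z in 𝓝 x, z ∈ V ∧ ρ z ≠ 0 ∧ (∀ j σ, trn (Cm (p + d)) (Cm p) u v f₁ N' (θ σ)
      (s j z) = h j σ z * ρ z ^ N') ∧ ∀ j σ, HolV (Cm (p + d)) (h j σ) z := by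
    filter_upwards [hV.mem_nhds hxV, hρ0, eventually_all.2 fun j => eventually_all.2 fun σ =>
      hhe j σ, eventually_all.2 fun j => eventually_all.2 fun σ => (hh j σ).eventually]
      with z h1 h2 h3 h4 using ⟨h1, h2, h3, h4⟩
  -- the values on the first sheet
  have hdu : (dM (Cm (p + d)) (Cm (p + d)) u xc).det ≠ 0 := het xc hfxS hxΔ
  have hdv : (dM (Cm p) (Cm p) v (f₁ xc)).det ≠ 0 :=
    det_ne (hsq.etale _ fun h1 => hfxS (by rw [hsq.comm]; exact hS₀ h1))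
  have hh0 : h j₀ 0 x ≠ 0 := by
    intro h0
    have h1 := (hG.self_of_nhds).2.2.1 j₀ 0
    rw [h0, zero_mul, hj₀] at h1
    unfold trn at h1
    rcases mul_eq_zero.1 h1 with h2 | h2
    · exact hxc3.1.self_of_nhds h2
    · exact (pow_ne_zero _ (div_ne_zero hdv hdu)) h2
  have hratio : ∀ᶠ z in 𝓝 x, ∀ σ, h j₀ σ z / h j₀ 0 z = θ σ (s j₀ z) / θ 0 (s j₀ z) := by
    filter_upwards [hG, (hh j₀ 0).continuousAt.eventually_ne hh0] with z h1 h2 σ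
    obtain ⟨-, h3, h4, -⟩ := h1
    have h5 := h4 j₀ σ
    have h6 := h4 j₀ 0
    have h7 : ρ z ^ N' ≠ 0 := pow_ne_zero _ h3
    rw [← mul_div_mul_right _ _ h7, ← h5, ← h6]
    unfold trn
    have h8 : ((dM (Cm p) (Cm p) v (f₁ (s j₀ z))).det /
        (dM (Cm (p + d)) (Cm (p + d)) u (s j₀ z)).det) ^ N' ≠ 0 := by
      intro h9
      have h10 : trn (Cm (p + d)) (Cm p) u v f₁ N' (θ 0) (s j₀ z) = 0 := by
        unfold trn
        rw [h9, mul_zero]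
      rw [h6] at h10
      exact (mul_ne_zero h2 h7) h10
    rw [mul_div_mul_right _ _ h8]
  -- the slice
  obtain ⟨ζ, q, hζ, -, hq, hq0, hqe, -⟩ := exists_slice_s hf e₀ (hsub x hfxS)
  set v₀ := ζ x with hv₀
  have hqt : Tendsto q (𝓝 v₀) (𝓝 x) := by
    have := hq.continuousAt.tendsto
    rwa [hq0] at this
  have hq' : ∀ᶠ w in 𝓝 v₀, ContMDiffAt 𝓘(ℂ, Cm d) 𝓘(ℂ, Cm (p + d)) ω q w :=
    (contMDiffAt_iff_contMDiffAt_nhds (by simp)).1 hq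
  obtain ⟨M, hM⟩ : ∃ M, m' * (r + 1) = M := ⟨_, rfl⟩
  set eq : Fin m' × Fin (r + 1) ≃ Fin M := finProdFinEquiv.trans (finCongr hM) with heq
  set a : Fin M → Cm d → ℂ := fun j w => h (eq.symm j).1 (eq.symm j).2 (q w) with ha
  set ix : Fin (r + 1) → Fin M := fun σ => eq (j₀, σ) with hix
  have hai : ∀ σ w, a (ix σ) w = h j₀ σ (q w) := by
    intro σ w
    simp only [ha, hix, Equiv.symm_apply_apply]
  have hfrq := hPow d r M a ix v₀ (fun j => by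
      have h1 : HolV (Cm (p + d)) (h (eq.symm j).1 (eq.symm j).2) (q v₀) := by
        rw [hq0]
        exact hh _ _
      exact (slice_fderiv hq h1).1.analyticAt)
    (by rw [hai, hq0]; exact hh0)
    (by
      -- the rank on the slice
      have hsm : ContMDiffAt 𝓘(ℂ, Cm (p + d)) 𝓘(ℂ, Cm (p + d)) ω (s j₀) (q v₀) := by
        rw [hq0]
        exact (hs1 j₀ x hxV).1
      have hq₁ : ContMDiffAt 𝓘(ℂ, Cm d) 𝓘(ℂ, Cm (p + d)) ω (fun w => s j₀ (q w)) v₀ :=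
        ContMDiffAt.comp v₀ (g := s j₀) (f := q) hsm hq
      have hq₁0 : s j₀ (q v₀) = xc := by rw [hq0, hj₀]
      have hfy : ∀ᶠ w in 𝓝 v₀, f₁ (s j₀ (q w)) = f₁ (s j₀ (q v₀)) := by
        obtain ⟨φ, hφ1, hφ2, -⟩ := H349.TG.exists_locdiff_man hsq.holv
          (hsq.etale (f₁ xc) fun h1 => hfxS (by rw [hx, hsq.comm]; exact hS₀ h1))
        have hcont : ContinuousAt (fun w => f₁ (s j₀ (q w))) v₀ := by
          have h1 : ContinuousAt f₁ (s j₀ (q v₀)) := (hf₁ _).continuousAt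
          exact h1.comp (f := fun w => s j₀ (q w)) hq₁.continuousAt
        have hsrc : ∀ᶠ w in 𝓝 v₀, f₁ (s j₀ (q w)) ∈ φ.source := by
          refine hcont.eventually (φ.open_source.mem_nhds ?_)
          show f₁ (s j₀ (q v₀)) ∈ φ.source
          rw [hq₁0]
          exact hφ1
        filter_upwards [hqe, hqt.eventually (hV.mem_nhds hxV), hsrc] with w h1 h2 h3
        have h4 : f₁ (s j₀ (q v₀)) ∈ φ.source := hsrc.self_of_nhds
        refine φ.injOn h3 h4 ?_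
        rw [← hφ2 h3, ← hφ2 h4, ← hsq.comm, ← hsq.comm, (hs1 j₀ (q w) h2).2, hq₁0, h1.1]
      obtain ⟨hr1, hr2, hr3⟩ := hxc3
      have hs₁' : Function.Surjective (dM (Cm (p + d)) (Cm p) f₁ xc) :=
        hsub₁ xc (by rw [hxc1]; exact hy₁S)
      have hsj := (rk_surj hs₁' hr2).1 hr3
      intro c
      obtain ⟨ξ, hξ⟩ := hsj (0, c)
      have hξ1 : dM (Cm (p + d)) (Cm p) f₁ xc ξ = 0 := (Prod.mk.inj hξ).1
      have hξ2 : dV (Cm (p + d)) (vec fun (k : Fin r) z => θ k.succ z / θ 0 z) xc ξ = c :=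
        (Prod.mk.inj hξ).2
      set t : Cm d →L[ℂ] Cm (p + d) :=
        mfderiv 𝓘(ℂ, Cm d) 𝓘(ℂ, Cm (p + d)) (fun w => s j₀ (q w)) v₀ with ht
      have hAt : ∀ w, dM (Cm (p + d)) (Cm p) f₁ xc (t w) = 0 := by
        intro w
        have h1 := slice_ker hf₁ hq₁ hfy w
        rw [hq₁0] at h1
        exact h1
      have hP : HolV (Cm (p + d)) (fun z => ζ (u z)) (s j₀ (q v₀)) := by
        rw [hq₁0]
        exact HolV.comp (h := ζ) hζ (hu xc)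
      have hPt : ∀ w, dV (Cm (p + d)) (fun z => ζ (u z)) xc (t w) = w := by
        intro w
        have h1 := (slice_fderiv hq₁ hP).2
        have h2 : fderiv ℂ (fun w => ζ (u (s j₀ (q w)))) v₀ =
            ContinuousLinearMap.id ℂ (Cm d) := by
          have h3 : (fun w => ζ (u (s j₀ (q w)))) =ᶠ[𝓝 v₀] fun w => w := by
            filter_upwards [hqe, hqt.eventually (hV.mem_nhds hxV)] with w h4 h5
            rw [(hs1 j₀ (q w) h5).2]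
            exact h4.2
          rw [h3.fderiv_eq]
          exact fderiv_fun_id
        have h3 := h1.symm.trans h2
        have h4 := congrArg (fun L : Cm d →L[ℂ] Cm d => L w) h3
        rw [hq₁0] at h4
        exact h4
      have h5 : t (dV (Cm (p + d)) (fun z => ζ (u z)) xc ξ) = ξ :=
        frame_ker e₀ hs₁' hAt hPt hξ1
      refine ⟨dV (Cm (p + d)) (fun z => ζ (u z)) xc ξ, ?_⟩
      funext k
      have h6 : HolV (Cm (p + d)) (fun z => θ k.succ z / θ 0 z) (s j₀ (q v₀)) := by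
        rw [hq₁0]
        exact hr2 k.succ
      have h7 := (slice_fderiv hq₁ h6).2
      have h8 : (fun w => a (ix k.succ) w / a (ix 0) w) =ᶠ[𝓝 v₀]
          fun w => θ k.succ (s j₀ (q w)) / θ 0 (s j₀ (q w)) := by
        filter_upwards [hqt.eventually hratio] with w h9
        rw [hai, hai]
        exact h9 k.succ
      show fderiv ℂ (fun w => a (ix k.succ) w / a (ix 0) w) v₀
        (dV (Cm (p + d)) (fun z => ζ (u z)) xc ξ) = c k
      rw [h8.fderiv_eq, h7, ← hξ2]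
      show dV (Cm (p + d)) (fun z => θ k.succ z / θ 0 z) (s j₀ (q v₀))
        (t (dV (Cm (p + d)) (fun z => ζ (u z)) xc ξ)) = _
      rw [h5, hq₁0]
      exact (dV_vec (fun k => hr2 k.succ) ξ k).symm)
  -- the power sums
  set L := M.factorial with hL
  have hGG : ∀ᶠ w in 𝓝 v₀, ∀ᶠ z in 𝓝 (q w), z ∈ V ∧ ρ z ≠ 0 ∧
      (∀ j σ, trn (Cm (p + d)) (Cm p) u v f₁ N' (θ σ) (s j z) = h j σ z * ρ z ^ N') ∧
      ∀ j σ, HolV (Cm (p + d)) (h j σ) z := hqt.eventually (eventually_eventually_nhds.2 hG)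
  obtain ⟨w, ⟨k₀, k, hk₀, hk₀M, hk, hS0, hsurj⟩, ⟨hqw, hqf⟩, hGw⟩ := (hfrq.and_eventually
    ((hq'.and (eventually_eventually_nhds.2 hqe)).and hGG)).exists
  set P : ℕ → X → ℂ := fun k z => ∑ j : Fin M, h (eq.symm j).1 (eq.symm j).2 z ^ k with hP
  set T : ℕ → X → ℂ := fun k z =>
    ∑ σ : Fin (r + 1), tr (Cm (p + d)) (Cm p) u v f₁ N' k (θ σ) z with hT
  set F : ℕ → X → ℂ := fun k z => T k z ^ (L / k) with hF'
  have hTP : ∀ᶠ z in 𝓝 (q w), ∀ k, T k z = (ρ z ^ N') ^ k * P k z := by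
    filter_upwards [hGw] with z hz k
    obtain ⟨h1, h2, h3, h4⟩ := hz
    have h5 : ∀ σ, tr (Cm (p + d)) (Cm p) u v f₁ N' k (θ σ) z =
        (ρ z ^ N') ^ k * ∑ j, h j σ z ^ k := by
      intro σ
      rw [tr_eq u v f₁ N' k (θ σ) (s := s) (z := z) (fun j => (hs1 j z h1).2) (hs2 z h1)
        (fun x₁ hx₁ => (hs3 z h1 x₁ hx₁).1), Finset.mul_sum]
      refine Finset.sum_congr rfl fun j _ => ?_
      rw [h3, mul_pow, mul_comm]
    show ∑ σ : Fin (r + 1), tr (Cm (p + d)) (Cm p) u v f₁ N' k (θ σ) z =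
      (ρ z ^ N') ^ k * ∑ j : Fin M, h (eq.symm j).1 (eq.symm j).2 z ^ k
    rw [Finset.sum_congr rfl fun σ _ => h5 σ, ← Finset.mul_sum,
      Equiv.sum_comp eq.symm (fun jσ : Fin m' × Fin (r + 1) => h jσ.1 jσ.2 z ^ k),
      Fintype.sum_prod_type, Finset.sum_comm]
  have hdvd : ∀ k, 0 < k → k ≤ M → k ∣ L := fun k h1 h2 => Nat.dvd_factorial h1 h2
  have hFP : ∀ᶠ z in 𝓝 (q w), ∀ k, 0 < k → k ≤ M →
      F k z = (ρ z ^ N') ^ L * P k z ^ (L / k) := by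
    filter_upwards [hTP] with z hz k h1 h2
    show T k z ^ (L / k) = _
    rw [hz, mul_pow, ← pow_mul (ρ z ^ N'), Nat.mul_div_cancel' (hdvd k h1 h2)]
  have hPh : ∀ k, HolV (Cm (p + d)) (P k) (q w) := fun k =>
    HolV.sum fun j _ => HolV.pow (hGw.self_of_nhds.2.2.2 _ _) k
  have hP0 : P k₀ (q w) ≠ 0 := hS0
  have hρN : ∀ᶠ z in 𝓝 (q w), (ρ z ^ N') ^ L ≠ 0 := by
    filter_upwards [hGw] with z hz using pow_ne_zero _ (pow_ne_zero _ hz.2.1)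
  have hFr : ∀ b : Fin r, ∀ᶠ z in 𝓝 (q w), F (k b) z / F k₀ z =
      P (k b) z ^ (L / k b) / P k₀ z ^ (L / k₀) := by
    intro b
    filter_upwards [hFP, hρN] with z h1 h2
    rw [h1 _ (hk b).1 (hk b).2, h1 _ hk₀ hk₀M, mul_div_mul_left _ _ h2]
  have hFh : ∀ b : Fin r, HolV (Cm (p + d)) (fun z => F (k b) z / F k₀ z) (q w) := fun b =>
    ((HolV.pow (hPh (k b)) _).div (HolV.pow (hPh k₀) _) (pow_ne_zero _ hP0)).congr (hFr b)
  have hq₀N : ∀ D, (N * q₀ D : ℝ) = N' * Δ D := by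
    intro D
    rw [hq₀ D, hN']
    push_cast
    ring
  have hRT : ∀ k, 0 < k → RelFormT (UTame u w₁) f S e₀ (k * N') {D | Δ D ≠ 0}
      (fun D => k * (N * q₀ D)) (T k) := fun k hk => relSum Finset.univ fun σ _ =>
    hTr p d N' k m X₁ Y₁ X Y f₁ Δ₁ f Δ u v S₀ S S₁ w₁ e₀ 𝒜₁ (fun D => (M' + 1) * κ₁ D) (θ σ)
      (fun D => k * (N * q₀ D)) hd hk hsq hf₁c hfc hΔ₁ hΔ hScl hS₀ hvS hsub hm (hR σ) h𝒜₁ hκ'
      (fun D => by push_cast; rw [hq₀N])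
  have hRF : ∀ k, 0 < k → k ≤ M → RelFormT (UTame u w₁) f S e₀ (L * N') {D | Δ D ≠ 0}
      (fun D => L * (N * q₀ D)) (F k) := fun k h1 h2 =>
    relCast (relPow (hRT k h1) (L / k))
      (by rw [← mul_assoc, Nat.div_mul_cancel (hdvd k h1 h2)])
      (by funext D; rw [← mul_assoc, Nat.div_mul_cancel (hdvd k h1 h2)])
  refine ⟨L * N', {D | Δ D ≠ 0}, fun D => L * (N * q₀ D), F k₀, fun b => F (k b),
    Nat.mul_pos (Nat.factorial_pos M) (Nat.mul_pos (Nat.succ_pos _) hN), hΔ.1, hΔ.2.1,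
    hRF k₀ hk₀ hk₀M, fun b => hRF (k b) (hk b).1 (hk b).2, fun D => ?_, q w, ?_, ?_, hFh, ?_⟩
  · push_cast
    rw [hq₀N]
    exact le_of_eq (by ring)
  · rw [hqf.self_of_nhds.1, hfx]
  · filter_upwards [hFP, hρN, (hPh k₀).continuousAt.eventually_ne hP0] with z h1 h2 h3
    rw [h1 _ hk₀ hk₀M]
    exact mul_ne_zero h2 (pow_ne_zero _ h3)
  · intro c hc b₀
    obtain ⟨η, hη⟩ := hsurj (Pi.single b₀ 1)
    have h3 := hc ((mfderiv 𝓘(ℂ, Cm d) 𝓘(ℂ, Cm (p + d)) q w : Cm d →L[ℂ] Cm (p + d)) η)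
      (slice_ker hf hqw (by filter_upwards [hqf] with v hv; rw [hv.1, hqf.self_of_nhds.1]) η)
    have h4 : ∀ b : Fin r, dif (Cm (p + d)) (fun z => F (k b) z / F k₀ z) (q w)
        ((mfderiv 𝓘(ℂ, Cm d) 𝓘(ℂ, Cm (p + d)) q w : Cm d →L[ℂ] Cm (p + d)) η) =
        (Pi.single b₀ (1 : ℂ) : Fin r → ℂ) b := by
      intro b
      have h5 : (fun v => (∑ j, a j v ^ k b) ^ (L / k b) / (∑ j, a j v ^ k₀) ^ (L / k₀))
          =ᶠ[𝓝 w] fun v => F (k b) (q v) / F k₀ (q v) := by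
        filter_upwards [hqw.continuousAt.eventually (hFr b)] with v h6
        exact h6.symm
      have h6 := (slice_fderiv hqw (hFh b)).2
      have h7 := h5.fderiv_eq (𝕜 := ℂ)
      rw [h6] at h7
      have h8 := congrFun hη b
      rw [← h8]
      exact (congrArg (fun A : Cm d →L[ℂ] ℂ => A η) h7).symm
    rw [Finset.sum_congr rfl fun b _ => by rw [h4 b]] at h3
    simpa [Pi.single_apply] using h3

end Main

end Vale.Agent.P281.H969.TG
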