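import Vale.Agent.P281.H969.TG.Desc
import Vale.Agent.P281.H969.TL.Core

/-!
# P281, project T-G (helper969), block G9: the assembly
-/

open Set Filter Metric Vale.Agent.P281 Vale.Agent.P281.H713
open Vale.Agent.P272.K (Chart IsKahler IsHermitian Cm)
open Vale.Agent.P281.MF Vale.Agent.P281.ISO
open Vale.Agent.P281.H713.TZ
open Vale.Agent.P281.H64.Gen (IsSmallSet NoExc CritStmt ComplStmt)
open Vale.Agent.P281.H64.Thin (IsThinSet)
open Vale.Agent.P281.H64.TU (Tame KTame RelFormT HasFormsT)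
open Vale.Agent.P281.H969.TL
open scoped Topology ContDiff Manifold

set_option linter.all false

noncomputable section

namespace Vale.Agent.P281.H969.TG

/-- **T-G** from the blocks -/
theorem tg_of (crit : CritStmt) (fi : H64.TD.FibInStmt) (lift : H64.TU.LiftTStmt)
    (hTame : TameUStmt) (hVS : VSmallStmt) (hCard : CardStmt) (hTr : TraceStmt) (hPow : PowStmt) :
    TGStmt := by
  intro p d r X₁ Y₁ X Y _ _ _ _ _ _ _ _ _ _ f₁ Δ₁ f Δ u v S₀ hd h₁ h hsq hFam
  classical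
  obtain ⟨w₁, S₁, hw₁, hS₁, hP₁, hF⟩ := hFam
  have : T2Space X₁ := h₁.hausdorff.1
  have : T2Space Y₁ := h₁.hausdorff.2
  have : CompactSpace X₁ := h₁.compact
  have : T2Space X := h.hausdorff.1
  have : T2Space Y := h.hausdorff.2
  have : CompactSpace X := h.compact
  have : ConnectedSpace X := h.connected
  have : IsManifold 𝓘(ℂ, Cm (p + d)) ω X := h.manifold.1
  have : IsManifold 𝓘(ℂ, Cm p) ω Y := h.manifold.2
  have hsurj : Function.Surjective f := fun y => (h.fibres y).nonempty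
  have hsurj₁ : Function.Surjective f₁ := fun y => (h₁.fibres y).nonempty
  have : CompactSpace Y₁ := by
    refine isCompact_univ_iff.1 ?_
    rw [← hsurj₁.range_eq]
    exact isCompact_range h₁.hol.continuous
  have hprime : ∀ D ∈ h.snc.1.toFinset, J.IsPrime (Cm (p + d)) D := fun D hD =>
    h.snc.2.1 D (by simpa using hD)
  obtain ⟨Sc, hSc, hP⟩ := crit (p + d) p X Y f h.hol h.fibres
  obtain ⟨Sd, hcd, hSd, hne⟩ := fibIn_fin fi hd h.hol hP hSc h.snc.1.toFinset hprime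
  have hV : IsSmallSet (Cm p) (S₀ ∪ v '' S₁) :=
    hVS p Y₁ Y v S₀ S₁ hsq.holv hsq.small hsq.etale hS₁
  have hS : IsSmallSet (Cm p) (Sd ∪ (S₀ ∪ v '' S₁)) := hSd.union hV
  obtain ⟨S, hSe⟩ : ∃ S, Sd ∪ (S₀ ∪ v '' S₁) = S := ⟨_, rfl⟩
  rw [hSe] at hS
  have hdS : Sd ⊆ S := by
    rw [← hSe]
    exact subset_union_left
  have h0S : S₀ ⊆ S := by
    rw [← hSe]
    exact subset_union_left.trans subset_union_right
  have hvS : ∀ y₁, v y₁ ∉ S → y₁ ∉ S₁ := by
    intro y₁ h1 h2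
    rw [← hSe] at h1
    exact h1 (Or.inr (Or.inr ⟨y₁, h2, rfl⟩))
  have hPS := hP S (hcd.trans hdS) hS.1
  have hu : ∀ x, HolM (Cm (p + d)) (Cm (p + d)) u x := fun x => hsq.holu.contMDiffAt
  obtain ⟨m, hm⟩ := hCard (p + d) p X₁ X Y u f S Δ hsq.holu h.hol hsurj hS hPS.submersive h.snc
    fun x₁ h1 h2 => inj_of_det (etale_of_le (hu x₁) h₁.snc h.snc
      (hsq.le x₁ fun h3 => h1 (by rw [hsq.comm]; exact h0S h3)) h2)
  let e₀ : Cm (p + d) ≃L[ℂ] (Cm p × Cm d) := ContinuousLinearEquiv.ofFinrankEq (by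
    simp)
  have hforms : ∀ y ∉ S, HasFormsT (UTame u w₁) f S e₀ Δ r y :=
    desc hTr hPow hd hsq h₁.hol h.hol hsurj h₁.snc h.snc hS.1 h0S hvS hP₁.submersive
      hPS.submersive (fun y hy D hD => hne D (by simpa using hD) y fun h3 => hy (hdS h3))
      (fun y hy => (hPS.connected y hy).isPreconnected)
      (fun y hy => (hP₁.connected y hy).isPreconnected) hm (hF e₀)
  have hmain : ((r : ℕ∞) : WithBot ℕ∞) + TZ.S.kodF (p + d) p Δ (id : X → X) f ≤
        TZ.S.kodX (Cm (p + d)) Δ := by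
    refine H303.UF.first_of fun j₂ h₂ => ?_
    exact lift (p + d) p X Y (Cm d) (UTame u w₁) f S e₀ Δ r j₂
      (hTame (p + d) d X₁ X u w₁ hsq.holu hw₁) h.hol hS hPS.submersive h.snc hforms h₂
  obtain ⟨H, hH, hsub⟩ := hS.2
  refine ⟨H, hH, fun y hy F _ _ i hi => ⟨hmain, fun hk => ?_⟩⟩
  have hyS : y ∉ S := by
    intro h2
    obtain ⟨k, hk⟩ := mem_iUnion.1 (hsub h2)
    exact hy k hk
  have h2 := H64.TK.finish h.hol h.fibres h.snc hPS hyS hi ((add_le_add hk le_rfl).trans hmain)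
  exact ⟨h2.1.1, h2.2⟩

end Vale.Agent.P281.H969.TG
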