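import Vale.Agent.P281.H969.TG.Spec
import Vale.Agent.P281.H969.TL.Rank
import Vale.Agent.P281.H76.Pull

/-!
# P281, project T-G (helper969): tools
-/

open scoped Manifold ContDiff Topology
open Set Filter Metric Module

noncomputable section

namespace Vale.Agent.P281.H969.TG

open Vale.Agent.P281 Vale.Agent.P281.MF Vale.Agent.P281.ISO
open Vale.Agent.P281.H713 Vale.Agent.P281.H969.TL
open Vale.Agent.P281.H64.TU (Tame KTame TameOK RelFormT HasFormsT)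
open Vale.Agent.P272.K (Chart IsHermitian Cm)

set_option linter.unusedSectionVars false

section Rel

variable {E E' E₀ : Type} [NormedAddCommGroup E] [NormedSpace ℂ E] [FiniteDimensional ℂ E]
  [NormedAddCommGroup E'] [NormedSpace ℂ E'] [FiniteDimensional ℂ E']
  [NormedAddCommGroup E₀] [NormedSpace ℂ E₀] [FiniteDimensional ℂ E₀]
variable {X Y : Type} [TopologicalSpace X] [ChartedSpace E X] [IsManifold 𝓘(ℂ, E) ω X]
  [TopologicalSpace Y] [ChartedSpace E' Y] [IsManifold 𝓘(ℂ, E') ω Y]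
variable {T : Tame E₀ X} {f : X → Y} {S : Set Y} {e₀ : E ≃L[ℂ] (E' × E₀)} {N N' : ℕ}
  {𝒜 : Set (Set X)} {κ κ' : Set X → ℕ} {Θ Θ' : X → ℂ}

/-- products -/
theorem relMul (h : RelFormT T f S e₀ N 𝒜 κ Θ) (h' : RelFormT T f S e₀ N' 𝒜 κ' Θ') :
    RelFormT T f S e₀ (N + N') 𝒜 (fun D => κ D + κ' D) (fun x => Θ x * Θ' x) where
  hol := by
    intro x₀ x y₀ hx hx₀ hy₀ T e hT he
    obtain ⟨H, hH, hHe⟩ := h.hol x₀ x y₀ hx hx₀ hy₀ T e (fun D hD => hT D (by omega)) he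
    obtain ⟨H', hH', hHe'⟩ := h'.hol x₀ x y₀ hx hx₀ hy₀ T e (fun D hD => hT D (by omega)) he
    refine ⟨fun z => H z * H' z, hH.mul hH', ?_⟩
    filter_upwards [hHe, hHe'] with z h1 h2 h3 h4
    have h5 : ∏ D ∈ T, e D z ^ (κ D + κ' D) = (∏ D ∈ T, e D z ^ κ D) * ∏ D ∈ T, e D z ^ κ' D := by
      rw [← Finset.prod_mul_distrib]
      exact Finset.prod_congr rfl fun D _ => pow_add _ _ _
    rw [h5] at h4 ⊢
    have h6 := h1 h3 (left_ne_zero_of_mul h4)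
    have h7 := h2 h3 (right_ne_zero_of_mul h4)
    rw [pow_add, pow_add]
    linear_combination (jac E' (chartAt E' y₀) (f z) ^ N' * Θ' z * ∏ D ∈ T, e D z ^ κ' D) * h6 +
      (H z * jac E (chartAt E x₀) z ^ N) * h7
  bound := by
    intro r K hr hK
    obtain ⟨C, hC⟩ := h.bound r K hr hK
    obtain ⟨C', hC'⟩ := h'.bound r K hr hK
    refine ⟨C * C', fun v₀ Q h1 h2 h3 h4 h5 h6 P hP => ?_⟩
    have h7 := hC v₀ Q h1 h2 h3 h4 h5 h6 P hP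
    have h8 := hC' v₀ Q h1 h2 h3 h4 h5 h6 P hP
    rw [norm_mul, pow_add, norm_mul]
    calc ‖Θ (Q v₀)‖ * ‖Θ' (Q v₀)‖ ≤ (C * ‖JP e₀ (dM E E' f (Q v₀)) P ^ N‖) *
          (C' * ‖JP e₀ (dM E E' f (Q v₀)) P ^ N'‖) :=
          mul_le_mul h7 h8 (norm_nonneg _) ((norm_nonneg _).trans h7)
      _ = _ := by ring

/-- powers -/
theorem relPow (h : RelFormT T f S e₀ N 𝒜 κ Θ) (j : ℕ) :
    RelFormT T f S e₀ (j * N) 𝒜 (fun D => j * κ D) (fun x => Θ x ^ j) where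
  hol := by
    intro x₀ x y₀ hx hx₀ hy₀ T e hT he
    classical
    rcases Nat.eq_zero_or_pos j with rfl | hj
    · refine ⟨fun _ => 1, HolV.const _ _, Eventually.of_forall fun z _ _ => ?_⟩
      simp
    · obtain ⟨H, hH, hHe⟩ := h.hol x₀ x y₀ hx hx₀ hy₀ T e
        (fun D hD => hT D (Nat.mul_ne_zero hj.ne' hD)) he
      refine ⟨fun z => H z ^ j, HolV.pow hH j, ?_⟩
      filter_upwards [hHe] with z h1 h2 h3
      have h5 : ∏ D ∈ T, e D z ^ (j * κ D) = (∏ D ∈ T, e D z ^ κ D) ^ j := by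
        rw [← Finset.prod_pow]
        exact Finset.prod_congr rfl fun D _ => by rw [mul_comm, pow_mul]
      rw [h5] at h3 ⊢
      have h6 := h1 h2 (fun h0 => h3 (by rw [h0, zero_pow hj.ne']))
      rw [mul_comm j N, pow_mul, pow_mul, ← mul_pow, ← mul_pow, ← mul_pow, h6]
  bound := by
    intro r K hr hK
    obtain ⟨C, hC⟩ := h.bound r K hr hK
    refine ⟨C ^ j, fun v₀ Q h1 h2 h3 h4 h5 h6 P hP => ?_⟩
    have h7 := hC v₀ Q h1 h2 h3 h4 h5 h6 P hP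
    rw [norm_pow, mul_comm j N, pow_mul, norm_pow, ← mul_pow]
    exact pow_le_pow_left₀ (norm_nonneg _) h7 j

theorem relCast {M : ℕ} {κ' : Set X → ℕ} (h : RelFormT T f S e₀ N 𝒜 κ Θ) (hM : N = M)
    (hκ : κ = κ') : RelFormT T f S e₀ M 𝒜 κ' Θ := by
  subst hM hκ
  exact h

/-- sums -/
theorem relSum {ι : Type} (s : Finset ι) {Θ : ι → X → ℂ}
    (h : ∀ i ∈ s, RelFormT T f S e₀ N 𝒜 κ (Θ i)) :
    RelFormT T f S e₀ N 𝒜 κ (fun x => ∑ i ∈ s, Θ i x) where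
  hol := by
    intro x₀ x y₀ hx hx₀ hy₀ T e hT he
    classical
    have h1 : ∀ i, ∃ H : X → ℂ, i ∈ s → HolV E H x ∧ ∀ᶠ z in 𝓝 x, (∀ D ∈ 𝒜, z ∉ D) →
        ∏ D ∈ T, e D z ^ κ D ≠ 0 → jac E' (chartAt E' y₀) (f z) ^ N * Θ i z *
          ∏ D ∈ T, e D z ^ κ D = H z * jac E (chartAt E x₀) z ^ N := by
      intro i
      by_cases hi : i ∈ s
      · obtain ⟨H, hH⟩ := (h i hi).hol x₀ x y₀ hx hx₀ hy₀ T e hT he
        exact ⟨H, fun _ => hH⟩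
      · exact ⟨fun _ => 0, fun h => absurd h hi⟩
    choose H hH using h1
    refine ⟨fun z => ∑ i ∈ s, H i z, HolV.sum fun i hi => (hH i hi).1, ?_⟩
    have h2 : ∀ᶠ z in 𝓝 x, ∀ i ∈ s, (∀ D ∈ 𝒜, z ∉ D) →
        ∏ D ∈ T, e D z ^ κ D ≠ 0 → jac E' (chartAt E' y₀) (f z) ^ N * Θ i z *
          ∏ D ∈ T, e D z ^ κ D = H i z * jac E (chartAt E x₀) z ^ N :=
      (Finset.eventually_all s).2 fun i hi => (hH i hi).2
    filter_upwards [h2] with z h3 h4 h5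
    rw [Finset.mul_sum, Finset.sum_mul, Finset.sum_mul]
    exact Finset.sum_congr rfl fun i hi => h3 i hi h4 h5
  bound := by
    intro r K hr hK
    have h1 : ∀ i, ∃ C : ℝ, i ∈ s → ∀ (v₀ : E₀) (Q : E₀ → X),
      (∀ v ∈ ball v₀ r, ContMDiffAt 𝓘(ℂ, E₀) 𝓘(ℂ, E) ω Q v) → InjOn Q (ball v₀ r) →
      (∀ v ∈ ball v₀ r, f (Q v) = f (Q v₀)) → f (Q v₀) ∉ S →
      (∀ v ∈ ball v₀ r, ∀ D ∈ 𝒜, Q v ∉ D) → T K Q v₀ r → ∀ P : E →L[ℂ] E₀,
      P.comp (mfderiv 𝓘(ℂ, E₀) 𝓘(ℂ, E) Q v₀ : E₀ →L[ℂ] E) = ContinuousLinearMap.id ℂ E₀ →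
      ‖Θ i (Q v₀)‖ ≤ C * ‖JP e₀ (dM E E' f (Q v₀)) P ^ N‖ := by
      intro i
      by_cases hi : i ∈ s
      · obtain ⟨C, hC⟩ := (h i hi).bound r K hr hK
        exact ⟨C, fun _ => hC⟩
      · exact ⟨0, fun h => absurd h hi⟩
    choose C hC using h1
    refine ⟨∑ i ∈ s, C i, fun v₀ Q h1 h2 h3 h4 h5 h6 P hP => ?_⟩
    rw [Finset.sum_mul]
    exact (norm_sum_le _ _).trans
      (Finset.sum_le_sum fun i hi => hC i hi v₀ Q h1 h2 h3 h4 h5 h6 P hP)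

end Rel

section Jac

variable {n p : ℕ} {X₁ X : Type} [TopologicalSpace X₁] [ChartedSpace (Cm n) X₁]
  [IsManifold 𝓘(ℂ, Cm n) ω X₁] [TopologicalSpace X] [ChartedSpace (Cm n) X]
  [IsManifold 𝓘(ℂ, Cm n) ω X]

/-- the Jacobian determinant of `u` in the charts at `x₁` and `u x₁` -/
def dc (n : ℕ) {X₁ X : Type} [TopologicalSpace X₁] [ChartedSpace (Cm n) X₁]
    [TopologicalSpace X] [ChartedSpace (Cm n) X] (u : X₁ → X) (x₁ z : X₁) : ℂ :=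
  (fderiv ℂ (chartAt (Cm n) (u x₁) ∘ u ∘ (chartAt (Cm n) x₁).symm) (chartAt (Cm n) x₁ z)).det

theorem dc_jac {u : X₁ → X} {x₁ : X₁} (hu : HolM (Cm n) (Cm n) u x₁) :
    ∀ᶠ z in 𝓝 x₁, jac (Cm n) (chartAt (Cm n) (u x₁)) (u z) * (dM (Cm n) (Cm n) u z).det =
      dc n u x₁ z * jac (Cm n) (chartAt (Cm n) x₁) z := by
  filter_upwards [H76.jac_comp hu, hu.eventually, hu.continuousAt.eventually
    ((chartAt (Cm n) (u x₁)).open_source.mem_nhds (mem_chart_source _ (u x₁))),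
    (chartAt (Cm n) x₁).open_source.mem_nhds (mem_chart_source _ x₁)] with z h1 h2 h3 h4
  rw [← h1]
  have h5 : HolV (Cm n) (fun w => chartAt (Cm n) (u x₁) (u w)) z :=
    HolV.comp (h := (chartAt (Cm n) (u x₁) : X → Cm n)) (HolV.chart h3) h2
  show (dV (Cm n) (fun w => chartAt (Cm n) (u x₁) (u w)) z).det = _
  rw [dV_eq_chart h4 h5, clm_det_comp]
  rfl

theorem dc_holV {u : X₁ → X} {x₁ : X₁} (hu : HolM (Cm n) (Cm n) u x₁) :
    HolV (Cm n) (dc n u x₁) x₁ := by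
  have h1 : HolV (Cm n) (fun w => chartAt (Cm n) (u x₁) (u w)) x₁ :=
    HolV.comp (h := (chartAt (Cm n) (u x₁) : X → Cm n)) (HolV.chart (mem_chart_source _ _)) hu
  have h2 : ContDiffAt ℂ ω (fderiv ℂ (chartAt (Cm n) (u x₁) ∘ u ∘ (chartAt (Cm n) x₁).symm))
      (chartAt (Cm n) x₁ x₁) := (h1.rep (mem_chart_source _ x₁)).fderiv_right (by simp)
  have h3 : HolV (Cm n) (fun z => fderiv ℂ (chartAt (Cm n) (u x₁) ∘ u ∘
      (chartAt (Cm n) x₁).symm) (chartAt (Cm n) x₁ z)) x₁ :=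
    HolV.comp_contDiff (G := fderiv ℂ (chartAt (Cm n) (u x₁) ∘ u ∘ (chartAt (Cm n) x₁).symm))
      h2 (HolV.chart (mem_chart_source _ x₁))
  exact HolV.comp_contDiff (G := fun A : Cm n →L[ℂ] Cm n => A.det) contDiff_det.contDiffAt h3

/-- off the support of `Δ`, `u` is étale -/
theorem etale_of_le {u : X₁ → X} {Δ₁ : Set X₁ → ℝ} {Δ : Set X → ℝ} {x₁ : X₁}
    (hu : HolM (Cm n) (Cm n) u x₁) (hΔ₁ : J.IsSNC (Cm n) Δ₁) (hΔ : J.IsSNC (Cm n) Δ)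
    (h : LogLe n u Δ₁ Δ x₁) (hx : ∀ D, Δ D ≠ 0 → u x₁ ∉ D) :
    (dM (Cm n) (Cm n) u x₁).det ≠ 0 := by
  classical
  have h1 : ∀ D, ∃ g, Δ₁ D ≠ 0 → J.IsLocalEq (Cm n) D g x₁ := by
    intro D
    by_cases hD : Δ₁ D ≠ 0
    · obtain ⟨g, hg⟩ := (hΔ₁.2.1 D hD).2.1 x₁
      exact ⟨g, fun _ => hg⟩
    · exact ⟨fun _ => 0, fun h' => absurd h' hD⟩
  choose e₁ he₁ using h1
  obtain ⟨C, hC⟩ := h hΔ₁.1.toFinset hΔ.1.toFinset e₁ (fun _ _ => 1) (fun D => by simp)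
    (fun D => by simp) (fun D hD => he₁ D (by simpa using hD))
    (fun D hD => localEq_one (hΔ.2.1 D (by simpa using hD)).1 (hx D (by simpa using hD)))
  have h2 := hC.self_of_nhds
  have h3 : ∏ D ∈ hΔ.1.toFinset, ‖(1 : ℂ)‖ ^ Δ D = 1 := by simp
  rw [h3] at h2
  intro h4
  have h5 := (dc_jac hu).self_of_nhds
  rw [h4, mul_zero] at h5
  have h6 : dc n u x₁ x₁ = 0 := by
    rcases mul_eq_zero.1 h5.symm with h6 | h6
    · exact h6
    · exact absurd h6 (jac_chart_ne_zero (mem_chart_source _ x₁))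
  unfold dc at h6
  rw [h6, norm_zero, mul_zero, zero_mul] at h2
  linarith

end Jac

end Vale.Agent.P281.H969.TG
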