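import Vale.Agent.P281.H969.TG.Spec
import Vale.Agent.P281.H969.TLN.Fin

/-!
# P281, project T-G (helper969), block G10 for T-LN: the family of forms
-/

open Set Filter Metric Vale.Agent.P281 Vale.Agent.P281.H713
open Vale.Agent.P272.K (Chart IsKahler IsHermitian Cm)
open Vale.Agent.P281.MF Vale.Agent.P281.ISO
open Vale.Agent.P281.H713.TZ
open Vale.Agent.P281.H64.Gen (IsSmallSet NoExc CritStmt ComplStmt)
open Vale.Agent.P281.H64.Thin (IsThinSet)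
open Vale.Agent.P281.H64.TU (Tame KTame RelFormT HasFormsT)
open Vale.Agent.P281.H969.TL Vale.Agent.P281.H969.TLN
open scoped Topology ContDiff Manifold

set_option linter.all false

noncomputable section

namespace Vale.Agent.P281.H969.TG

theorem hasD_mono {E E' E₀ : Type} [NormedAddCommGroup E] [NormedSpace ℂ E]
    [FiniteDimensional ℂ E] [NormedAddCommGroup E'] [NormedSpace ℂ E'] [FiniteDimensional ℂ E']
    [NormedAddCommGroup E₀] [NormedSpace ℂ E₀] [FiniteDimensional ℂ E₀]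
    {X Y : Type} [TopologicalSpace X] [ChartedSpace E X] [IsManifold 𝓘(ℂ, E) ω X]
    [TopologicalSpace Y] [ChartedSpace E' Y] [IsManifold 𝓘(ℂ, E') ω Y] {T : Tame E₀ X}
    {f : X → Y} {S S' : Set Y} (hSS : S ⊆ S') {e₀ : E ≃L[ℂ] (E' × E₀)} {Δ : Set X → ℝ} {r : ℕ}
    {y : Y} (h : HasFormsD T f S e₀ Δ r y) : HasFormsD T f S' e₀ Δ r y := by
  obtain ⟨N, 𝒜, κ₀, Θ, Ξ, h1, h2, h4, h5, h6⟩ := h
  exact ⟨N, 𝒜, κ₀, Θ, Ξ, h1, h2, relForm_mono hSS h4, fun b => relForm_mono hSS (h5 b), h6⟩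

/-- **B7**, with `𝒟` in the support of `Δ` -/
theorem hasNForms {p d r N : ℕ} {X Y : Type} [TopologicalSpace X] [T2Space X]
    [ChartedSpace (Cm (p + d)) X] [IsManifold 𝓘(ℂ, Cm (p + d)) ω X] [TopologicalSpace Y]
    [T2Space Y] [ChartedSpace (Cm p) Y] [IsManifold 𝓘(ℂ, Cm p) ω Y] {𝒯 : Tame (Cm d) X}
    {f : X → Y} {S : Set Y} {𝒟 : Finset (Set X)} {a : Fin (r + 1) → Fin N → Fin d → Set X → ℤ}
    (e₀ : Cm (p + d) ≃L[ℂ] (Cm p × Cm d)) {Δ : Set X → ℝ} (hd : 0 < d) (hN : 0 < N)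
    (hfc : ContMDiff 𝓘(ℂ, Cm (p + d)) 𝓘(ℂ, Cm p) ω f) (hS : IsClosed S)
    (hfib : H64.IsProperFibration (n := p + d) (p := p) f S)
    (h𝒟 : ∀ D ∈ 𝒟, J.IsPrime (Cm (p + d)) D) (hne : ∀ D ∈ 𝒟, ∀ y ∉ S, ¬ f ⁻¹' {y} ⊆ D)
    (hΔ0 : ∀ D, 0 ≤ Δ D) (hD0 : ∀ D ∈ 𝒟, Δ D ≠ 0)
    (hΔ1 : ∀ D ∈ 𝒟, ∀ s, (cnt (a s) D : ℝ) ≤ N * Δ D)
    (hfam : ∀ s i b, ∀ y₀ ∉ S, ∃ (W : Set Y) (U : X → ℂ), IsOpen W ∧ y₀ ∈ W ∧
      IsUnitOn (Cm (p + d)) f 𝒟 (a s i b) W U)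
    (hbd : ∀ s i b, ∀ ρ K : ℝ, 0 < ρ → 0 < K → ∃ B : ℝ, ∀ (y : Y) (U : X → ℂ), y ∉ S →
      IsUnitAt (Cm (p + d)) f 𝒟 (a s i b) y U → ∀ (q : Cm d → X) (v₀ : Cm d),
      IsPolydisc (Cm (p + d)) f q v₀ ρ → 𝒯 K q v₀ ρ → f (q v₀) = y →
      (∀ v ∈ ball v₀ ρ, ∀ D ∈ 𝒟, q v ∉ D) →
      ‖fderiv ℂ (fun v => U (q v)) v₀‖ ≤ B * ‖U (q v₀)‖)
    {y : Y} (hy : y ∉ S) (hrank : NRankAt (n := p + d) N d f 𝒟 a y) :
    HasFormsD 𝒯 f S e₀ Δ r y := by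
  classical
  have hL : LFam (Cm (p + d)) (Cm p) f S 𝒟 :=
    { hol := fun x => hfc.contMDiffAt
      closed := hS
      sub := hfib.submersive
      conn := fun y hy => (hfib.connected y hy).isPreconnected
      cpt := fun y hy => hfib.proper {y} isCompact_singleton (by simpa using hy)
      prime := h𝒟
      not_sub := hne }
  have h1 : ∀ s i b (y : Y), ∃ (W : Set Y) (U : X → ℂ), y ∉ S →
      IsOpen W ∧ y ∈ W ∧ IsUnitOn (Cm (p + d)) f 𝒟 (a s i b) W U := by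
    intro s i b y
    by_cases hy : y ∉ S
    · obtain ⟨W, U, h⟩ := hfam s i b y hy
      exact ⟨W, U, fun _ => h⟩
    · exact ⟨∅, fun _ => 0, fun h => absurd h hy⟩
  choose W U hU using h1
  have hrel := fun s => nrelForm hL e₀ (a := a) s (W := W s) (U := U s)
    (fun i b y hy => hU s i b y hy) (hbd s)
  obtain ⟨x₁, hfx₁, -, h2, h3, h4⟩ := nrk_of hL hN e₀ (W := W) (U := U)
    (fun s i b y hy => hU s i b y hy) hy hrank
  exact ⟨N, (𝒟 : Set (Set X)), kapN 𝒟 a, nTheta (Cm (p + d)) (Cm p) f e₀ (U 0),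
    fun k => nTheta (Cm (p + d)) (Cm p) f e₀ (U k.succ), hN,
    fun D hD => hD0 D (Finset.mem_coe.1 hD), hrel 0, fun k => hrel k.succ,
    kapN_le a hΔ0 hΔ1, x₁, hfx₁, h2, fun k => h3 k.succ, h4⟩


/-- **G10 for T-LN** -/
theorem famN {p d r N : ℕ} {X Y : Type} [TopologicalSpace X]
    [ChartedSpace (Cm (p + d)) X] [IsManifold 𝓘(ℂ, Cm (p + d)) ω X] [TopologicalSpace Y]
    [ChartedSpace (Cm p) Y] [IsManifold 𝓘(ℂ, Cm p) ω Y] {f : X → Y}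
    {Δ : Set X → ℝ} {a : Fin (r + 1) → Fin N → Fin d → Set X → ℤ} (hd : 0 < d) (hN : 0 < N)
    (h : H511.Surf.IsFibration (Cm (p + d)) (Cm p) f Δ)
    (hw : ∃ w : Chart (p + d) X → Cm (p + d) → Matrix (Fin (p + d)) (Fin (p + d)) ℂ, IsKahler w)
    {𝒟 : Finset (Set X)} (h𝒟Δ : ∀ D ∈ 𝒟, Δ D ≠ 0 ∧ ∀ s, (cnt (a s) D : ℝ) ≤ N * Δ D)
    {H₀ : ℕ → Set Y}
    (hH₀ : ∀ k, IsThinSet (Cm p) (H₀ k)) (hgr : ∀ y, (∀ k, y ∉ H₀ k) →
      ∃ (F : Type) (_ : TopologicalSpace F) (_ : ChartedSpace (Cm d) F) (i : F → X),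
        H511.Surf.IsFibre (Cm (p + d)) (Cm d) f y i ∧ Function.Injective i ∧
        NGaussRank (p + d) N d i 𝒟 a) : HasFam p d r f Δ := by
  obtain ⟨w, hw⟩ := hw
  have crit : CritStmt := TL.crit
  have compl : ComplStmt := H383.Gen.compl
  have fi : H64.TD.FibInStmt := H364.TD.fibIn
  have fibN : FibNStmt := fibNStmt
  have famU : FamUStmt := TL.famU
  have bound : BoundStmt := TL.bound
  classical
  have : T2Space X := h.hausdorff.1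
  have : T2Space Y := h.hausdorff.2
  have : CompactSpace X := h.compact
  have : ConnectedSpace X := h.connected
  have hsurj : Function.Surjective f := fun y => (h.fibres y).nonempty
  have : PreconnectedSpace Y := by
    rw [preconnectedSpace_iff_univ, ← hsurj.range_eq]
    exact isPreconnected_range h.hol.continuous
  have hprime : ∀ D ∈ 𝒟, J.IsPrime (Cm (p + d)) D := fun D hD =>
    h.snc.2.1 D (h𝒟Δ D hD).1
  have hΔ0 : ∀ D, 0 ≤ Δ D := fun D => by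
    obtain ⟨c, h1, h2, -⟩ := h.snc.2.2.1 D
    rw [h1]
    exact_mod_cast h2
  obtain ⟨S₁, hS₁, hP⟩ := crit (p + d) p X Y f h.hol h.fibres
  obtain ⟨S₂, h12, hS₂, hne⟩ := fibIn_fin fi hd h.hol hP hS₁ 𝒟 hprime
  have hP₂ := hP S₂ h12 hS₂.1
  have hpre := (compl p Y S₂ hS₂).2
  have hLR : ∀ y ∉ S₂, (∀ k, y ∉ H₀ k) → NRankAt (n := p + d) N d f 𝒟 a y := by
    intro y hy hyH
    obtain ⟨F, tF, cF, i, hi, hinj, hg⟩ := hgr y hyH
    exact fibN p d r N X Y F f S₂ 𝒟 a i y hd h.hol hS₂.1 hP₂ hprime hne hy hi hinj hg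
  have hfreq : ∀ s i b, ∀ y ∉ S₂,
      ∃ᶠ y' in 𝓝 y, ∃ U, IsUnitAt (Cm (p + d)) f 𝒟 (a s i b) y' U := by
    intro s i b y hy
    have h1 : H64.Gen.Cov p (⋃ k, H₀ k) := ⟨H₀, hH₀, subset_rfl⟩
    have h2 : ∃ᶠ y' in 𝓝 y, y' ∈ (⋃ k, H₀ k)ᶜ := mem_closure_iff_frequently.1 (h1.dense_compl y)
    refine (h2.and_eventually (hS₂.1.isOpen_compl.mem_nhds hy)).mono ?_
    rintro y' ⟨h3, h4⟩
    obtain ⟨U, hU, -⟩ := hLR y' h4 fun k hk => h3 (mem_iUnion.2 ⟨k, hk⟩)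
    exact ⟨U s i b, hU s i b⟩
  have hfam := fun s i b => famU p d X Y f S₂ w 𝒟 (a s i b) hd hw.toIsHermitian h.hol hS₂.1 hP₂
    hprime hne (hfreq s i b)
  have hbd := fun s i b =>
    bound p d X Y f S₂ w 𝒟 (a s i b) hd h.hol hS₂.1 hP₂ hpre hw hprime hne
  have hL : LFam (Cm (p + d)) (Cm p) f S₂ 𝒟 :=
    { hol := fun x => h.hol.contMDiffAt
      closed := hS₂.1
      sub := hP₂.submersive
      conn := fun y hy => (hP₂.connected y hy).isPreconnected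
      cpt := fun y hy => hP₂.proper {y} isCompact_singleton (by simpa using hy)
      prime := hprime
      not_sub := hne }
  let e₀ : Cm (p + d) ≃L[ℂ] (Cm p × Cm d) := ContinuousLinearEquiv.ofFinrankEq (by
    simp)
  set S' : Set Y := {y | y ∈ S₂ ∨ ¬ NRankAt (n := p + d) N d f 𝒟 a y} with hS'
  have hsub : S₂ ⊆ S' := fun y hy => Or.inl hy
  have hcl : IsClosed S' := by
    rw [← isOpen_compl_iff, isOpen_iff_mem_nhds]
    intro y hy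
    have h1 : y ∉ S₂ := fun h2 => hy (Or.inl h2)
    have h2 : NRankAt (n := p + d) N d f 𝒟 a y := by
      by_contra h3
      exact hy (Or.inr h3)
    filter_upwards [hS₂.1.isOpen_compl.mem_nhds h1, nrank_open hL hN e₀ hfam h1 h2] with y' h3 h4 h5
    rcases h5 with h5 | h5
    · exact h3 h5
    · exact h5 h4
  have hsmall : IsSmallSet (Cm p) S' := by
    obtain ⟨H₂, hH₂, hsub₂⟩ := hS₂.2
    obtain ⟨H, hH, hHs⟩ := two_seq hH₂ hH₀
    refine ⟨hcl, H, hH, fun y hy => hHs ?_⟩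
    rcases hy with hy | hy
    · exact Or.inl (hsub₂ hy)
    · by_cases hyS : y ∈ S₂
      · exact Or.inl (hsub₂ hyS)
      · right
        by_contra h1
        exact hy (hLR y hyS fun k hk => h1 (mem_iUnion.2 ⟨k, hk⟩))
  have hP' := hP S' (h12.trans hsub) hcl
  refine ⟨w, S', hw.toIsHermitian, hsmall, hP', fun e₀ y hy => ?_⟩
  exact hasD_mono hsub (hasNForms (𝒯 := KTame w) e₀ hd hN h.hol hS₂.1 hP₂ hprime hne hΔ0
    (fun D hD => (h𝒟Δ D hD).1) (fun D hD => (h𝒟Δ D hD).2) hfam hbd (fun h3 => hy (Or.inl h3))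
    (by
      by_contra h3
      exact hy (Or.inr h3)))

end Vale.Agent.P281.H969.TG
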