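import Vale.Agent.P281.H969.TG.Base

/-!
# P281, project T-G (helper969), block G8: local form of the traces
-/

open scoped Manifold ContDiff Topology
open Set Filter Metric Module

noncomputable section

namespace Vale.Agent.P281.H969.TG

open Vale.Agent.P281 Vale.Agent.P281.MF Vale.Agent.P281.ISO
open Vale.Agent.P281.H713 Vale.Agent.P281.H969.TL
open Vale.Agent.P281.H64.TU (Tame KTame TameOK RelFormT HasFormsT)
open Vale.Agent.P272.K (Chart IsHermitian Cm)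

set_option linter.unusedSectionVars false

section Off

variable {n p : ℕ} {X₁ X : Type} [TopologicalSpace X₁] [ChartedSpace (Cm n) X₁]
  [IsManifold 𝓘(ℂ, Cm n) ω X₁] [TopologicalSpace X] [ChartedSpace (Cm n) X]
  [IsManifold 𝓘(ℂ, Cm n) ω X]

/-- over the complement of the support of `Δ`, off the support of `Δ₁` -/
theorem off_of_le {u : X₁ → X} {Δ₁ : Set X₁ → ℝ} {Δ : Set X → ℝ} {x₁ : X₁}
    (hΔ₁ : J.IsSNC (Cm n) Δ₁) (hΔ : J.IsSNC (Cm n) Δ)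
    (h : LogLe n u Δ₁ Δ x₁) (hx : ∀ D, Δ D ≠ 0 → u x₁ ∉ D) :
    ∀ D, Δ₁ D ≠ 0 → x₁ ∉ D := by
  classical
  have h1 : ∀ D, ∃ g, Δ₁ D ≠ 0 → J.IsLocalEq (Cm n) D g x₁ := by
    intro D
    by_cases hD : Δ₁ D ≠ 0
    · obtain ⟨g, hg⟩ := (hΔ₁.2.1 D hD).2.1 x₁
      exact ⟨g, fun _ => hg⟩
    · exact ⟨fun _ => 0, fun h' => absurd h' hD⟩
  choose e₁ he₁ using h1
  obtain ⟨C, hC⟩ := h hΔ₁.1.toFinset hΔ.1.toFinset e₁ (fun _ _ => 1) (fun D => by simp)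
    (fun D => by simp) (fun D hD => he₁ D (by simpa using hD))
    (fun D hD => localEq_one (hΔ.2.1 D (by simpa using hD)).1 (hx D (by simpa using hD)))
  have h2 := hC.self_of_nhds
  have h3 : ∏ D ∈ hΔ.1.toFinset, ‖(1 : ℂ)‖ ^ Δ D = 1 := by simp
  rw [h3] at h2
  intro D hD hxD
  obtain ⟨V, -, hxV, -, hDV, -⟩ := he₁ D hD
  have h4 : e₁ D x₁ = 0 := (hDV x₁ hxV).1 hxD
  have h5 : ∏ D ∈ hΔ₁.1.toFinset, ‖e₁ D x₁‖ ^ Δ₁ D = 0 := by
    refine Finset.prod_eq_zero (i := D) (by simpa using hD) ?_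
    rw [h4, norm_zero, Real.zero_rpow hD]
  rw [h5, mul_zero] at h2
  linarith

end Off

section Loc

variable {p d N : ℕ} {X₁ Y₁ X Y : Type} [TopologicalSpace X₁]
  [ChartedSpace (Cm (p + d)) X₁] [IsManifold 𝓘(ℂ, Cm (p + d)) ω X₁] [TopologicalSpace Y₁]
  [ChartedSpace (Cm p) Y₁] [IsManifold 𝓘(ℂ, Cm p) ω Y₁] [TopologicalSpace X]
  [ChartedSpace (Cm (p + d)) X] [IsManifold 𝓘(ℂ, Cm (p + d)) ω X] [TopologicalSpace Y]
  [ChartedSpace (Cm p) Y] [IsManifold 𝓘(ℂ, Cm p) ω Y] {f₁ : X₁ → Y₁}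
  {Δ₁ : Set X₁ → ℝ} {f : X → Y} {Δ : Set X → ℝ} {u : X₁ → X} {v : Y₁ → Y} {S₀ : Set Y}
  {S₁ : Set Y₁} {𝒯 : Tame (Cm d) X₁} {e₀ : Cm (p + d) ≃L[ℂ] (Cm p × Cm d)}
  {𝒜₁ : Set (Set X₁)} {κ₁ : Set X₁ → ℕ} {Θ₁ : X₁ → ℂ}

/-- The transported form along a sheet. -/
theorem trn_local (hsq : IsSq (n := p + d) (p := p) f₁ Δ₁ f Δ u v S₀)
    (hf₁ : ∀ x, HolM (Cm (p + d)) (Cm p) f₁ x) (hΔ₁ : J.IsSNC (Cm (p + d)) Δ₁)
    (hΔ : J.IsSNC (Cm (p + d)) Δ) (hR : RelFormT 𝒯 f₁ S₁ e₀ N 𝒜₁ κ₁ Θ₁)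
    (h𝒜 : ∀ D ∈ 𝒜₁, Δ₁ D ≠ 0) (hκ : ∀ D, (κ₁ D : ℝ) ≤ N * Δ₁ D) {x : X} (hxS : f x ∉ S₀)
    (hxΔ : ∀ D, Δ D ≠ 0 → x ∉ D) {s : X → X₁} (hs : HolM (Cm (p + d)) (Cm (p + d)) s x)
    (hus : ∀ᶠ z in 𝓝 x, u (s z) = z) (hS₁ : f₁ (s x) ∉ S₁) :
    ∃ h : X → ℂ, HolV (Cm (p + d)) h x ∧ ∀ᶠ z in 𝓝 x,
      trn (Cm (p + d)) (Cm p) u v f₁ N Θ₁ (s z) =
        h z * (jac (Cm (p + d)) (chartAt (Cm (p + d)) x) z /
          jac (Cm p) (chartAt (Cm p) (f x)) (f z)) ^ N := by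
  classical
  have hu : ∀ x, HolM (Cm (p + d)) (Cm (p + d)) u x := fun x => hsq.holu.contMDiffAt
  have hv : ∀ y, HolM (Cm p) (Cm p) v y := fun y => hsq.holv.contMDiffAt
  set x₁ := s x with hx₁
  have hux : u x₁ = x := hus.self_of_nhds
  have hvy : v (f₁ x₁) = f x := by rw [← hsq.comm, hux]
  have hle : LogLe (p + d) u Δ₁ Δ x₁ := hsq.le x₁ (by rw [hvy]; exact hxS)
  have hx₁Δ : ∀ D, Δ₁ D ≠ 0 → x₁ ∉ D := off_of_le hΔ₁ hΔ hle (by rw [hux]; exact hxΔ)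
  have hdet : (dM (Cm (p + d)) (Cm (p + d)) u x₁).det ≠ 0 :=
    etale_of_le (hu x₁) hΔ₁ hΔ hle (by rw [hux]; exact hxΔ)
  have hcl : ∀ D, Δ₁ D ≠ 0 → IsClosed D := fun D hD => (hΔ₁.2.1 D hD).1
  obtain ⟨H, hH, hHe⟩ := hR.hol x₁ x₁ (f₁ x₁) hS₁ (mem_chart_source _ _) (mem_chart_source _ _)
    hΔ₁.1.toFinset (fun _ _ => 1) (fun D hD => by
      have h1 : Δ₁ D ≠ 0 := by
        intro h0
        have h2 := hκ D
        rw [h0, mul_zero] at h2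
        have h3 : (κ₁ D : ℝ) = 0 := le_antisymm h2 (Nat.cast_nonneg _)
        exact hD (by exact_mod_cast h3)
      simpa using h1)
    (fun D hD => localEq_one (hcl D (by simpa using hD)) (hx₁Δ D (by simpa using hD)))
  have hst : Tendsto s (𝓝 x) (𝓝 x₁) := hs.continuousAt
  have hft : Tendsto f₁ (𝓝 x₁) (𝓝 (f₁ x₁)) := (hf₁ x₁).continuousAt
  have hoff : ∀ᶠ z in 𝓝 x₁, ∀ D ∈ hΔ₁.1.toFinset, z ∉ D :=
    (Finset.eventually_all _).2 fun D hD =>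
      (hcl D (by simpa using hD)).isOpen_compl.mem_nhds (hx₁Δ D (by simpa using hD))
  have hdcu : dc (p + d) u x₁ x₁ ≠ 0 := by
    intro h0
    have h1 := (dc_jac (hu x₁)).self_of_nhds
    rw [h0, zero_mul] at h1
    rcases mul_eq_zero.1 h1 with h2 | h2
    · exact jac_chart_ne_zero (mem_chart_source _ _) h2
    · exact hdet h2
  have hJX₁ : ∀ᶠ z in 𝓝 x₁, jac (Cm (p + d)) (chartAt (Cm (p + d)) x₁) z ≠ 0 := by
    filter_upwards [(chartAt (Cm (p + d)) x₁).open_source.mem_nhds (mem_chart_source _ x₁)]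
      with z hz using jac_chart_ne_zero hz
  have hJY₁ : ∀ᶠ w in 𝓝 (f₁ x₁), jac (Cm p) (chartAt (Cm p) (f₁ x₁)) w ≠ 0 := by
    filter_upwards [(chartAt (Cm p) (f₁ x₁)).open_source.mem_nhds (mem_chart_source _ _)]
      with z hz using jac_chart_ne_zero hz
  have hJX : ∀ᶠ z in 𝓝 x₁, jac (Cm (p + d)) (chartAt (Cm (p + d)) (u x₁)) (u z) ≠ 0 := by
    filter_upwards [(hu x₁).continuousAt.eventually
      ((chartAt (Cm (p + d)) (u x₁)).open_source.mem_nhds (mem_chart_source _ _))]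
      with z hz using jac_chart_ne_zero hz
  have hJY : ∀ᶠ w in 𝓝 (f₁ x₁), jac (Cm p) (chartAt (Cm p) (v (f₁ x₁))) (v w) ≠ 0 := by
    filter_upwards [(hv (f₁ x₁)).continuousAt.eventually
      ((chartAt (Cm p) (v (f₁ x₁))).open_source.mem_nhds (mem_chart_source _ _))]
      with z hz using jac_chart_ne_zero hz
  have hloc : ∀ᶠ z in 𝓝 x₁, trn (Cm (p + d)) (Cm p) u v f₁ N Θ₁ z =
      H z * (dc p v (f₁ x₁) (f₁ z) / dc (p + d) u x₁ z) ^ N *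
        (jac (Cm (p + d)) (chartAt (Cm (p + d)) (u x₁)) (u z) /
          jac (Cm p) (chartAt (Cm p) (v (f₁ x₁))) (v (f₁ z))) ^ N := by
    filter_upwards [hHe, hoff, dc_jac (hu x₁), hft.eventually (dc_jac (hv (f₁ x₁))),
      (dc_holV (hu x₁)).continuousAt.eventually_ne hdcu, hJX₁, hft.eventually hJY₁, hJX,
      hft.eventually hJY] with z h1 h2 h3 h4 h5 h6 h7 h8 h9
    have h10 := h1 (fun D hD => h2 D (by simpa using h𝒜 D hD)) (by simp)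
    have h10' : jac (Cm p) (chartAt (Cm p) (f₁ x₁)) (f₁ z) ^ N * Θ₁ z =
        H z * jac (Cm (p + d)) (chartAt (Cm (p + d)) x₁) z ^ N := by
      rw [← h10]
      simp
    have h11 : (dM (Cm (p + d)) (Cm (p + d)) u z).det =
        dc (p + d) u x₁ z * jac (Cm (p + d)) (chartAt (Cm (p + d)) x₁) z /
          jac (Cm (p + d)) (chartAt (Cm (p + d)) (u x₁)) (u z) := by
      rw [eq_div_iff h8, ← h3, mul_comm]
    have h12 : (dM (Cm p) (Cm p) v (f₁ z)).det =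
        dc p v (f₁ x₁) (f₁ z) * jac (Cm p) (chartAt (Cm p) (f₁ x₁)) (f₁ z) /
          jac (Cm p) (chartAt (Cm p) (v (f₁ x₁))) (v (f₁ z)) := by
      rw [eq_div_iff h9, ← h4, mul_comm]
    have h13 : Θ₁ z = H z * jac (Cm (p + d)) (chartAt (Cm (p + d)) x₁) z ^ N /
        jac (Cm p) (chartAt (Cm p) (f₁ x₁)) (f₁ z) ^ N := by
      rw [eq_div_iff (pow_ne_zero N h7), ← h10', mul_comm]
    unfold trn
    rw [h11, h12, h13, div_pow, div_pow, div_pow, div_pow, div_pow, mul_pow, mul_pow]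
    have h5' := pow_ne_zero N h5
    have h6' := pow_ne_zero N h6
    have h7' := pow_ne_zero N h7
    have h8' := pow_ne_zero N h8
    have h9' := pow_ne_zero N h9
    field_simp
  rw [hvy] at hloc
  rw [hux] at hloc
  refine ⟨fun z => H (s z) * (dc p v (f₁ x₁) (f₁ (s z)) / dc (p + d) u x₁ (s z)) ^ N, ?_, ?_⟩
  · have h1 : HolV (Cm (p + d)) (fun z => H (s z)) x := HolV.comp (h := H) hH hs
    have h2 : HolV (Cm (p + d)) (fun z => dc (p + d) u x₁ (s z)) x :=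
      HolV.comp (h := dc (p + d) u x₁) (dc_holV (hu x₁)) hs
    have h3 : HolV (Cm (p + d)) (fun z => dc p v (f₁ x₁) (f₁ z)) x₁ :=
      HolV.comp (h := dc p v (f₁ x₁)) (dc_holV (hv (f₁ x₁))) (hf₁ x₁)
    have h4 : HolV (Cm (p + d)) (fun z => dc p v (f₁ x₁) (f₁ (s z))) x :=
      HolV.comp (h := fun z => dc p v (f₁ x₁) (f₁ z)) h3 hs
    exact h1.mul (HolV.pow (h4.div h2 hdcu) N)
  · filter_upwards [hst.eventually hloc, hus] with z h1 h2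
    rw [h1, ← hsq.comm, h2]

end Loc

section Dense

variable {E E' : Type} [NormedAddCommGroup E] [NormedSpace ℂ E] [FiniteDimensional ℂ E]
  [NormedAddCommGroup E'] [NormedSpace ℂ E'] [FiniteDimensional ℂ E']
variable {X Y : Type} [TopologicalSpace X] [ChartedSpace E X] [IsManifold 𝓘(ℂ, E) ω X]
  [TopologicalSpace Y] [ChartedSpace E' Y] [IsManifold 𝓘(ℂ, E') ω Y] {d : ℕ}

/-- A hypersurface which does not contain a fibre is nowhere dense in it. -/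
theorem dense_an {f : X → Y} (hf : ∀ x, HolM E E' f x) (e₀ : E ≃L[ℂ] (E' × (Fin d → ℂ)))
    {y : Y} (hs : ∀ x, f x = y → Function.Surjective (dM E E' f x))
    (hc : IsPreconnected (f ⁻¹' {y})) {A : Set X}
    (hA : ∀ x, f x = y → ∃ g : X → ℂ, HolV E g x ∧ ∀ᶠ z in 𝓝 x, z ∈ A ↔ g z = 0)
    (hne : ¬ f ⁻¹' {y} ⊆ A) {x : X} (hx : f x = y) : ∃ᶠ z in 𝓝 x, f z = y ∧ z ∉ A := by
  intro h0
  refine hne fun x' hx' => ?_
  have h0' : ∀ᶠ z in 𝓝[f ⁻¹' {y}] x, z ∈ A := by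
    rw [eventually_nhdsWithin_iff]
    filter_upwards [h0] with z h1 h2
    by_contra h3
    exact h1 ⟨h2, h3⟩
  have h1 : ∀ᶠ z in 𝓝[f ⁻¹' {y}] x', z ∈ A := by
    refine clopen_fib (P := fun x => ∀ᶠ z in 𝓝[f ⁻¹' {y}] x, z ∈ A) hc ?_ ?_
      (show x ∈ f ⁻¹' {y} from hx) h0' hx'
    · intro z _ hz
      exact eventually_eventually_nhdsWithin.2 hz
    · intro z hz hfr
      have hz' : f z = y := hz
      obtain ⟨g, hg, hgA⟩ := hA z hz'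
      obtain ⟨N, hN, hNe⟩ := slice_ident hf e₀ (hs z hz') hg
      rw [hz'] at hNe
      have h2 : ∃ w ∈ N, f w = y ∧ ∀ᶠ u in 𝓝 w, f u = y → g u = 0 := by
        have h3 : ∀ᶠ w in 𝓝[f ⁻¹' {y}] z, w ∈ N ∧ ∀ᶠ t in 𝓝 w, (t ∈ A ↔ g t = 0) :=
          mem_nhdsWithin_of_mem_nhds ((show ∀ᶠ w in 𝓝 z, w ∈ N from hN).and
            (eventually_eventually_nhds.2 hgA))
        have h3' : ∀ᶠ w in 𝓝[f ⁻¹' {y}] z, f w = y := self_mem_nhdsWithin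
        obtain ⟨w, hw1, hw2, hw3⟩ := (hfr.and_eventually (h3.and h3')).exists
        refine ⟨w, hw2.1, hw3, ?_⟩
        filter_upwards [eventually_nhdsWithin_iff.1 hw1, hw2.2] with t h4 h5 h6
        exact h5.1 (h4 h6)
      rw [eventually_nhdsWithin_iff]
      filter_upwards [hNe h2, hgA] with t h4 h5 h6
      exact h5.2 (h4 h6)
  exact (eventually_nhdsWithin_iff.1 h1).self_of_nhds hx'

end Dense

end Vale.Agent.P281.H969.TG
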